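import Mathlib

set_option autoImplicit false

/-!
# P181, ST (T2): coefficients of products of polynomials in disjoint variables
-/

open MvPolynomial

namespace Vale.Agent.P181.ST.H575

lemma zero_of_supported {γ : Type} {U : Set γ} {P : MvPolynomial γ ℂ} (h : P ∈ supported ℂ U)
    {x : γ →₀ ℕ} (hx : coeff x P ≠ 0) {k : γ} (hk : k ∉ U) : x k = 0 := by
  classical
  by_contra h0
  exact hk (mem_supported.1 h ((mem_vars_iff_mem_support k).2 ⟨x, mem_support_iff.2 hx,
    Finsupp.mem_support_iff.2 h0⟩))

lemma coeff_mul_filter {γ : Type} (U : Set γ) [DecidablePred (· ∈ U)] (P Q : MvPolynomial γ ℂ)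
    (hP : P ∈ supported ℂ U) (hQ : Q ∈ supported ℂ Uᶜ) (w : γ →₀ ℕ) :
    coeff w (P * Q) = coeff (w.filter (· ∈ U)) P * coeff (w.filter (fun k => ¬ k ∈ U)) Q := by
  classical
  rw [coeff_mul, Finset.sum_eq_single (w.filter (· ∈ U), w.filter fun k => ¬ k ∈ U)]
  · rintro ⟨x, y⟩ hxy hne
    replace hxy : x + y = w := Finset.HasAntidiagonal.mem_antidiagonal.1 hxy
    by_contra h
    have hx : coeff x P ≠ 0 := left_ne_zero_of_mul h
    have hy : coeff y Q ≠ 0 := right_ne_zero_of_mul h
    apply hne
    have h0 : ∀ k, x k + y k = w k := fun k => by rw [← hxy, Finsupp.add_apply]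
    refine Prod.ext ?_ ?_
    · ext k
      simp only [Finsupp.filter_apply]
      by_cases hk : k ∈ U
      · rw [if_pos hk, ← h0 k, zero_of_supported hQ hy (fun h => h hk), add_zero]
      · rw [if_neg hk, zero_of_supported hP hx hk]
    · ext k
      simp only [Finsupp.filter_apply]
      by_cases hk : k ∈ U
      · rw [if_neg (not_not.2 hk), zero_of_supported hQ hy (fun h => h hk)]
      · rw [if_pos hk, ← h0 k, zero_of_supported hP hx hk, zero_add]
  · intro h
    exact absurd (Finset.HasAntidiagonal.mem_antidiagonal.2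
      (Finsupp.filter_add_filter_not w (· ∈ U))) h

/-- A product of polynomials in disjoint variables. -/
lemma coeff_prod_cls {γ ι : Type} [DecidableEq ι] (cl : γ → ι) (P : ι → MvPolynomial γ ℂ)
    (hP : ∀ i, P i ∈ supported ℂ {k | cl k = i}) (s : Finset ι) : ∀ w : γ →₀ ℕ,
    (∀ k, cl k ∉ s → w k = 0) →
    coeff w (∏ i ∈ s, P i) = ∏ i ∈ s, coeff (w.filter fun k => cl k = i) (P i) := by
  classical
  induction s using Finset.induction_on with
  | empty =>
    intro w hw
    have h0 : w = 0 := by
      ext k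
      exact hw k (Finset.notMem_empty _)
    rw [Finset.prod_empty, Finset.prod_empty, h0, coeff_zero_one]
  | insert i s hi ih =>
    intro w hw
    rw [Finset.prod_insert hi, Finset.prod_insert hi, coeff_mul_filter {k | cl k = i} _ _ (hP i)
      ?_ w, ih]
    · congr 1
      refine Finset.prod_congr rfl fun j hj => ?_
      have hji : j ≠ i := fun h => hi (h ▸ hj)
      congr 1
      ext k
      simp only [Finsupp.filter_apply]
      by_cases hk : cl k = j
      · rw [if_pos hk, if_pos hk, if_pos]
        intro h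
        exact hji (hk.symm.trans h)
      · rw [if_neg hk, if_neg hk]
    · intro k hk
      simp only [Finsupp.filter_apply]
      by_cases h : cl k = i
      · rw [if_neg]
        exact not_not.2 h
      · rw [if_pos (by exact h)]
        refine hw k fun h' => ?_
        rcases Finset.mem_insert.1 h' with h' | h'
        · exact h h'
        · exact hk h'
    · refine Subalgebra.prod_mem _ fun j hj => ?_
      refine supported_mono ?_ (hP j)
      intro k hk h
      change cl k = i at h
      change cl k = j at hk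
      exact hi (by rw [← h, hk]; exact hj)

/-- A renamed polynomial. -/
lemma coeff_rename_comap {α β : Type} (f : α → β) (hf : Function.Injective f)
    (P : MvPolynomial α ℂ) (w : β →₀ ℕ) (u : α →₀ ℕ) (hu : ∀ a, u a = w (f a))
    (hw : ∀ k, (∀ a, f a ≠ k) → w k = 0) : coeff w (rename f P) = coeff u P := by
  classical
  have h1 : w = u.mapDomain f := by
    ext k
    by_cases h : ∃ a, f a = k
    · obtain ⟨a, rfl⟩ := h
      rw [Finsupp.mapDomain_apply hf, hu]
    · rw [hw k (fun a ha => h ⟨a, ha⟩), Finsupp.mapDomain_of_notMem_range]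
      rintro ⟨a, ha⟩
      exact h ⟨a, ha⟩
  rw [h1, coeff_rename_mapDomain _ hf]

/-- The powers of a linear form. -/
lemma coeff_lin_pow {g : ℕ} (φ : Fin g → ℂ) (n : ℕ) (u : Fin g →₀ ℕ) (hu : ∑ i, u i = n) :
    coeff u ((∑ i, C (φ i) * X i : MvPolynomial (Fin g) ℂ) ^ n) =
      (Nat.multinomial Finset.univ u : ℂ) * ∏ i, φ i ^ u i := by
  classical
  have h1 : ∀ k : Fin g → ℕ, ((Nat.multinomial Finset.univ k : ℕ) : MvPolynomial (Fin g) ℂ) *
      ∏ i, (C (φ i) * X i) ^ k i = monomial (Finsupp.equivFunOnFinite.symm k)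
        ((Nat.multinomial Finset.univ k : ℂ) * ∏ i, φ i ^ k i) := by
    intro k
    rw [monomial_eq, Finsupp.prod_fintype _ _ (fun _ => pow_zero _), map_mul, map_prod]
    simp only [mul_pow, Finset.prod_mul_distrib, map_pow, map_natCast]
    rw [mul_assoc]
    rfl
  rw [Finset.sum_pow_eq_sum_piAntidiag, coeff_sum, Finset.sum_eq_single (u : Fin g → ℕ)]
  · rw [h1, coeff_monomial, if_pos]
    exact Finsupp.equivFunOnFinite.symm_apply_apply u
  · intro k _ hk
    rw [h1, coeff_monomial, if_neg]
    intro h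
    apply hk
    rw [← h]
    rfl
  · intro h
    exact absurd (Finset.mem_piAntidiag.2 ⟨hu, fun i _ => Finset.mem_univ i⟩) h

/-- Setting variables to zero. -/
lemma coeff_kill {κ : Type} (K : κ → Prop) [DecidablePred K] (w : κ →₀ ℕ)
    (hw : ∀ k, K k → w k = 0) (P : MvPolynomial κ ℂ) :
    coeff w (aeval (fun k => if K k then (0 : MvPolynomial κ ℂ) else X k) P) = coeff w P := by
  classical
  conv_lhs => rw [P.as_sum, map_sum, coeff_sum]
  conv_rhs => rw [P.as_sum, coeff_sum]
  refine Finset.sum_congr rfl fun u _ => ?_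
  rw [aeval_monomial]
  by_cases h : ∀ k ∈ u.support, ¬ K k
  · have h1 : (u.prod fun k n => (if K k then (0 : MvPolynomial κ ℂ) else X k) ^ n) =
        u.prod fun k n => X k ^ n := by
      refine Finset.prod_congr rfl fun k hk => ?_
      beta_reduce
      rw [if_neg (h k hk)]
    rw [h1]
    exact congrArg _ (monomial_eq).symm
  · push Not at h
    obtain ⟨k, hk, hk0⟩ := h
    have h1 : (u.prod fun k n => (if K k then (0 : MvPolynomial κ ℂ) else X k) ^ n) = 0 := by
      refine Finset.prod_eq_zero hk ?_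
      beta_reduce
      rw [if_pos hk0, zero_pow (Finsupp.mem_support_iff.1 hk)]
    rw [h1, mul_zero, coeff_zero, coeff_monomial, if_neg]
    intro h2
    rw [h2] at hk
    exact (Finsupp.mem_support_iff.1 hk) (hw k hk0)

/-- Scaling of the columns. -/
lemma aeval_scale {m c : ℕ} {A : Type} [CommRing A] [Algebra ℂ A] {d : Fin c → ℕ}
    (v : MvPolynomial (Fin m × Fin c) ℂ) (hv : ∀ u, coeff u v ≠ 0 → ∀ j, ∑ i, u (i, j) = d j)
    (b : Fin c → A) (Ξ : Fin m × Fin c → A) :
    aeval (fun p => b p.2 * Ξ p) v = (∏ j, b j ^ d j) * aeval Ξ v := by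
  classical
  rw [v.as_sum, map_sum, map_sum, Finset.mul_sum]
  refine Finset.sum_congr rfl fun u hu => ?_
  rw [aeval_monomial, aeval_monomial]
  have h1 : (u.prod fun p n => (b p.2 * Ξ p) ^ n) =
      (∏ j, b j ^ d j) * u.prod fun p n => Ξ p ^ n := by
    rw [Finsupp.prod_fintype _ _ (fun _ => pow_zero _), Finsupp.prod_fintype _ _
      (fun _ => pow_zero _)]
    simp only [mul_pow, Finset.prod_mul_distrib]
    congr 1
    rw [Fintype.prod_prod_type_right]
    refine Finset.prod_congr rfl fun j _ => ?_
    simp only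
    rw [Finset.prod_pow_eq_pow_sum, hv u (mem_support_iff.1 hu) j]
  rw [h1]
  ring

end Vale.Agent.P181.ST.H575
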