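import Vale.Agent.P181.ST.H575.Op
import Vale.Agent.P181.ST.H575.Co
import Vale.Agent.P181.ST.H607.Tri

set_option autoImplicit false

/-!
# P181, ST (T2): the coefficients of `F` at the monomials with one big column in every triple
-/

open MvPolynomial

namespace Vale.Agent.P181.ST.H575

open Vale.Agent.P181.ST.H607 (ee ee0 ee1 ee2 lA lC tri0 tri1 tri2 kap)

/-- The columns. -/
abbrev Cl (c g1 g2 : ℕ) : Type := (Fin c × Fin 3) ⊕ (Fin g1 ⊕ Fin g2)

/-- The columns of the triple `q`, rotated. -/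
def tp {c g1 g2 : ℕ} (s : Fin c → Fin 3) (q : Fin c) (t : Fin 3) : Cl c g1 g2 :=
  Sum.inl (q, t + s q)

lemma tp_inj {c g1 g2 : ℕ} (s : Fin c → Fin 3) (q : Fin c) :
    Function.Injective (tp (g1 := g1) (g2 := g2) s q) := by
  intro t t' h
  have h1 := (Prod.ext_iff.1 (Sum.inl_injective h)).2
  exact add_right_cancel h1

/-- The coefficients of `A`. -/
def cA : Fin 3 → ℂ := ![1, -1, 0]

/-- The coefficients of `C`. -/
def cC : Fin 3 → ℂ := ![1, 1, -2]

/-- The polynomial `F`, the triples rotated by `s`. -/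
noncomputable def FS {m c g1 g2 : ℕ} (e1 : ℕ) (ι : Fin c → ℕ) (ζ : Fin g1 → ℂ) (ζ' : Fin g2 → ℂ)
    (s : Fin c → Fin 3) (v : MvPolynomial (Fin m × Fin c) ℂ) :
    MvPolynomial (Fin (m + 1) × Cl c g1 g2) ℂ :=
  FF e1 g2 ι (lf (m := m + 1) (fun t => Sum.inr (Sum.inl t)) ζ)
    (lf (fun t => Sum.inr (Sum.inr t)) ζ' 0) (fun q => lf (tp s q) cA 0)
    (fun q => lf (tp s q) cC) v

lemma map_FF {m c : ℕ} {A B : Type} [CommRing A] [Algebra ℂ A] [CommRing B] [Algebra ℂ B]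
    (φ : A →ₐ[ℂ] B) (e1 e2 : ℕ) (ι : Fin c → ℕ)
    (Z : Fin (m + 1) → A) (Z' : A) (P : Fin c → A) (Q : Fin c → Fin (m + 1) → A)
    (v : MvPolynomial (Fin m × Fin c) ℂ) :
    φ (FF e1 e2 ι Z Z' P Q v) = FF e1 e2 ι (fun i => φ (Z i)) (φ Z') (fun q => φ (P q))
      (fun q i => φ (Q q i)) v := by
  unfold FF
  rw [map_mul, map_mul, map_mul, map_pow, map_pow, map_prod, comp_aeval_apply]
  simp only [map_mul, map_pow, map_sub]

lemma FF_killed {m c : ℕ} {A : Type} [CommRing A] [Algebra ℂ A] (e1 e2 : ℕ) (ι d : Fin c → ℕ)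
    (Z : Fin (m + 1) → A) (Z' : A) (P : Fin c → A) (Q : Fin c → Fin (m + 1) → A)
    (v : MvPolynomial (Fin m × Fin c) ℂ) (hv : ∀ u, coeff u v ≠ 0 → ∀ j, ∑ i, u (i, j) = d j)
    (hZ : ∀ k : Fin m, Z k.succ = 0) (χ : Fin c → ℂ) (Y : Fin m × Fin c → A)
    (hQ : ∀ q k, Q q (Fin.succ k) = algebraMap ℂ A (χ q) * Y (k, q)) :
    FF e1 e2 ι Z Z' P Q v = algebraMap ℂ A (∏ q, χ q ^ d q) *
      ((∏ q, P q ^ 2 * Q q 0 ^ ι q) * (Z 0 ^ (e1 + ∑ q, d q) * Z' ^ e2 * aeval Y v)) := by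
  have h1 : (fun p : Fin m × Fin c => Z 0 * Q p.2 p.1.succ - Z p.1.succ * Q p.2 0) =
      fun p => (Z 0 * algebraMap ℂ A (χ p.2)) * Y p := by
    funext p
    rw [hQ, hZ, zero_mul, sub_zero, mul_assoc]
  unfold FF
  rw [h1, aeval_scale v hv (fun q => Z 0 * algebraMap ℂ A (χ q)) Y]
  simp only [mul_pow, Finset.prod_mul_distrib]
  rw [Finset.prod_pow_eq_pow_sum, map_prod, pow_add]
  simp only [map_pow]
  ring

lemma lf_mem {m : ℕ} {S T : Type} [Fintype S] [Fintype T] (U : Set (Fin m × S)) (f : T → S)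
    (φ : T → ℂ) (i : Fin m) (h : ∀ t, (i, f t) ∈ U) : lf f φ i ∈ supported ℂ U :=
  Subalgebra.sum_mem _ fun t _ => Subalgebra.mul_mem _ (Subalgebra.algebraMap_mem _ _)
    (X_mem_supported.2 (h t))

lemma rename_mem {α β : Type} (U : Set β) (f : α → β) (h : ∀ a, f a ∈ U)
    (P : MvPolynomial α ℂ) : rename f P ∈ supported ℂ U := by
  classical
  rw [mem_supported]
  intro k hk
  have h1 := vars_rename f P (Finset.mem_coe.1 hk)
  rw [Finset.mem_image] at h1
  obtain ⟨a, _, rfl⟩ := h1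
  exact h a

/-- The exponent of a triple. -/
noncomputable def et (t : Fin 3) (i : ℕ) : Fin 3 →₀ ℕ :=
  Finsupp.equivFunOnFinite.symm fun x => if x = t then i else 1

lemma et_apply (t : Fin 3) (i : ℕ) (x : Fin 3) : et t i x = if x = t then i else 1 := rfl

/-- The constant of a triple. -/
noncomputable def kt (t : Fin 3) (i j : ℕ) : ℂ := coeff (et t i) (lA ^ 2 * lC ^ i) * cC t ^ j

lemma sum_kt (i j : ℕ) : ∑ t, kt t i j = kap i j := by
  have h0 : et 0 i = ee i 1 1 := by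
    ext x
    fin_cases x
    · exact (ee0 i 1 1).symm
    · exact (ee1 i 1 1).symm
    · exact (ee2 i 1 1).symm
  have h1 : et 1 i = ee 1 i 1 := by
    ext x
    fin_cases x
    · exact (ee0 1 i 1).symm
    · exact (ee1 1 i 1).symm
    · exact (ee2 1 i 1).symm
  have h2 : et 2 i = ee 1 1 i := by
    ext x
    fin_cases x
    · exact (ee0 1 1 i).symm
    · exact (ee1 1 1 i).symm
    · exact (ee2 1 1 i).symm
  rw [Fin.sum_univ_three, kt, kt, kt, h0, h1, h2, tri0, tri1, tri2]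
  have e0 : cC 0 = 1 := rfl
  have e1 : cC 1 = 1 := rfl
  have e2 : cC 2 = -2 := rfl
  rw [e0, e1, e2, kap, one_pow]
  ring

lemma hom_triple (i : ℕ) : (lA ^ 2 * lC ^ i : MvPolynomial (Fin 3) ℂ).IsHomogeneous (2 + i) := by
  have h1 : (lA : MvPolynomial (Fin 3) ℂ).IsHomogeneous 1 :=
    (isHomogeneous_X _ _).sub (isHomogeneous_X _ _)
  have h2 : (lC : MvPolynomial (Fin 3) ℂ).IsHomogeneous 1 := by
    refine ((isHomogeneous_X _ _).add (isHomogeneous_X _ _)).sub ?_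
    have h3 := (isHomogeneous_C (Fin 3) (2 : ℂ)).mul (isHomogeneous_X ℂ (2 : Fin 3))
    rwa [zero_add] at h3
  have h3 := (h1.pow 2).mul (h2.pow i)
  rwa [one_mul, one_mul] at h3

lemma lf_rename {m : ℕ} {S T : Type} [Fintype S] [Fintype T] (f : T → S) (φ : T → ℂ)
    (i : Fin m) : lf f φ i = rename (fun t => (i, f t)) (∑ t, C (φ t) * X t) := by
  rw [lf, map_sum]
  refine Finset.sum_congr rfl fun t _ => ?_
  rw [map_mul, rename_C, rename_X]

lemma lA_eq : (∑ t, C (cA t) * X t : MvPolynomial (Fin 3) ℂ) = lA := by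
  rw [Fin.sum_univ_three, lA]
  have e0 : cA 0 = 1 := rfl
  have e1 : cA 1 = -1 := rfl
  have e2 : cA 2 = 0 := rfl
  rw [e0, e1, e2, map_neg, C_1, C_0]
  ring

lemma lC_eq : (∑ t, C (cC t) * X t : MvPolynomial (Fin 3) ℂ) = lC := by
  rw [Fin.sum_univ_three, lC]
  have e0 : cC 0 = 1 := rfl
  have e1 : cC 1 = 1 := rfl
  have e2 : cC 2 = -2 := rfl
  rw [e0, e1, e2, map_neg, C_1]
  ring

/-- The class of a variable. -/
def cls {m c g1 g2 : ℕ} (p : Fin (m + 1) × Cl c g1 g2) : Fin c ⊕ Fin 3 :=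
  if p.1 = 0 then
    Sum.elim (fun x => Sum.inl x.1) (Sum.elim (fun _ => Sum.inr 0) (fun _ => Sum.inr 1)) p.2
  else Sum.inr 2

/-- The constant of the two groups. -/
noncomputable def kg {g1 g2 : ℕ} (ζ : Fin g1 → ℂ) (ζ' : Fin g2 → ℂ) : ℂ :=
  ((Nat.multinomial Finset.univ (fun _ : Fin g1 => 1) : ℕ) * ∏ t, ζ t) *
    ((Nat.multinomial Finset.univ (fun _ : Fin g2 => 1) : ℕ) * ∏ t, ζ' t)

lemma kg_ne {g1 g2 : ℕ} (ζ : Fin g1 → ℂ) (ζ' : Fin g2 → ℂ) (h : ∀ t, ζ t ≠ 0)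
    (h' : ∀ t, ζ' t ≠ 0) : kg ζ ζ' ≠ 0 :=
  mul_ne_zero (mul_ne_zero (Nat.cast_ne_zero.2 (Nat.multinomial_pos _ _).ne')
    (Finset.prod_ne_zero_iff.2 fun t _ => h t))
    (mul_ne_zero (Nat.cast_ne_zero.2 (Nat.multinomial_pos _ _).ne')
    (Finset.prod_ne_zero_iff.2 fun t _ => h' t))

lemma coeff_group {m : ℕ} {S : Type} [Fintype S] {g : ℕ} (f : Fin g → S)
    (hf : Function.Injective f) (ζ : Fin g → ℂ) (w : Fin (m + 1) × S →₀ ℕ)
    (h1 : ∀ t, w (0, f t) = 1) (h2 : ∀ k, (∀ t, (0, f t) ≠ k) → w k = 0) :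
    coeff w (lf f ζ 0 ^ g) = (Nat.multinomial Finset.univ (fun _ : Fin g => 1) : ℕ) * ∏ t, ζ t := by
  rw [lf_rename, ← map_pow, coeff_rename_comap (fun t => ((0 : Fin (m + 1)), f t))
    (fun t t' h => hf (Prod.ext_iff.1 h).2) _ w
    (Finsupp.equivFunOnFinite.symm fun _ => 1) (fun t => (h1 t).symm) h2,
    coeff_lin_pow ζ g _ (by simp)]
  congr 1
  refine Finset.prod_congr rfl fun t _ => ?_
  exact pow_one _

lemma aeval_X_eq_rename {α β : Type} (f : α → β) (v : MvPolynomial α ℂ) :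
    aeval (fun p => (X (f p) : MvPolynomial β ℂ)) v = rename f v := by
  have h : (aeval (fun p => (X (f p) : MvPolynomial β ℂ)) : MvPolynomial α ℂ →ₐ[ℂ] _) =
      rename f := algHom_ext fun p => by rw [aeval_X, rename_X]
  exact DFunLike.congr_fun h v

section transversal

variable {m c g1 g2 : ℕ}

/-- The variables which do not occur in a transversal monomial. -/
def KI (r : Fin c → Fin 3) (p : Fin (m + 1) × Cl c g1 g2) : Prop :=
  p.1 ≠ 0 ∧ ∀ q, p.2 ≠ Sum.inl (q, r q)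

open scoped Classical in
/-- They are put to zero. -/
noncomputable def kil (r : Fin c → Fin 3) : MvPolynomial (Fin (m + 1) × Cl c g1 g2) ℂ →ₐ[ℂ]
    MvPolynomial (Fin (m + 1) × Cl c g1 g2) ℂ := aeval fun k => if KI r k then 0 else X k

lemma kil_zero {T : Type} [Fintype T] (r : Fin c → Fin 3) (f : T → Cl c g1 g2) (ψ : T → ℂ) :
    kil r (lf (m := m + 1) f ψ 0) = lf f ψ 0 := by
  classical
  rw [lf, map_sum]
  refine Finset.sum_congr rfl fun t _ => ?_
  rw [map_mul, show (C (ψ t) : MvPolynomial (Fin (m + 1) × Cl c g1 g2) ℂ) =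
    algebraMap ℂ _ (ψ t) from rfl, AlgHom.commutes, kil, aeval_X, if_neg]
  exact fun h => h.1 rfl

lemma kil_z (r : Fin c → Fin 3) (ζ : Fin g1 → ℂ) (k : Fin m) :
    kil r (lf (m := m + 1) (fun t => (Sum.inr (Sum.inl t) : Cl c g1 g2)) ζ k.succ) = 0 := by
  classical
  rw [lf, map_sum]
  refine Finset.sum_eq_zero fun t _ => ?_
  rw [map_mul, kil, aeval_X, if_pos, mul_zero]
  exact ⟨Fin.succ_ne_zero k, fun q h => absurd h (by simp)⟩

lemma kil_q (r s : Fin c → Fin 3) (q : Fin c) (k : Fin m) :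
    kil r (lf (m := m + 1) (tp (g1 := g1) (g2 := g2) s q) cC k.succ) =
      algebraMap ℂ _ (cC (r q - s q)) * X (k.succ, Sum.inl (q, r q)) := by
  classical
  rw [lf, map_sum, Finset.sum_eq_single (r q - s q)]
  · rw [map_mul, show (C (cC (r q - s q)) : MvPolynomial (Fin (m + 1) × Cl c g1 g2) ℂ) =
      algebraMap ℂ _ (cC (r q - s q)) from rfl, AlgHom.commutes, kil, aeval_X, if_neg]
    · rw [tp, sub_add_cancel]
    · intro h
      exact h.2 q (by rw [tp, sub_add_cancel])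
  · intro t _ ht
    rw [map_mul, kil, aeval_X, if_pos, mul_zero]
    refine ⟨Fin.succ_ne_zero k, fun q' h => ?_⟩
    have h5 := Sum.inl_injective h
    have h6 : q = q' := (Prod.ext_iff.1 h5).1
    subst h6
    have h7 : t + s q = r q := (Prod.ext_iff.1 h5).2
    exact ht (by rw [← h7, add_sub_cancel_right])
  · intro h
    exact absurd (Finset.mem_univ _) h

/-- The factors after the substitution. -/
noncomputable def PP (ι : Fin c → ℕ) (ζ : Fin g1 → ℂ) (ζ' : Fin g2 → ℂ) (s r : Fin c → Fin 3)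
    (v : MvPolynomial (Fin m × Fin c) ℂ) :
    Fin c ⊕ Fin 3 → MvPolynomial (Fin (m + 1) × Cl c g1 g2) ℂ :=
  Sum.elim (fun q => lf (m := m + 1) (tp s q) cA 0 ^ 2 * lf (tp s q) cC 0 ^ ι q)
    fun i => if i = 0 then lf (fun t => Sum.inr (Sum.inl t)) ζ 0 ^ g1
      else if i = 1 then lf (fun t => Sum.inr (Sum.inr t)) ζ' 0 ^ g2
      else rename (fun p : Fin m × Fin c => (p.1.succ, Sum.inl (p.2, r p.2))) v

section
variable (ι : Fin c → ℕ) (ζ : Fin g1 → ℂ) (ζ' : Fin g2 → ℂ) (s r : Fin c → Fin 3)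
    (v : MvPolynomial (Fin m × Fin c) ℂ)

lemma PP_inl (q : Fin c) : PP ι ζ ζ' s r v (Sum.inl q) =
    lf (m := m + 1) (tp s q) cA 0 ^ 2 * lf (tp s q) cC 0 ^ ι q := rfl

lemma PP_0 : PP ι ζ ζ' s r v (Sum.inr 0) =
    lf (m := m + 1) (fun t => Sum.inr (Sum.inl t)) ζ 0 ^ g1 := by
  rw [PP, Sum.elim_inr, if_pos rfl]

lemma PP_1 : PP ι ζ ζ' s r v (Sum.inr 1) =
    lf (m := m + 1) (fun t => Sum.inr (Sum.inr t)) ζ' 0 ^ g2 := by
  rw [PP, Sum.elim_inr, if_neg (by decide), if_pos rfl]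

lemma PP_2 : PP ι ζ ζ' s r v (Sum.inr 2) =
    rename (fun p : Fin m × Fin c => (p.1.succ, Sum.inl (p.2, r p.2))) v := by
  rw [PP, Sum.elim_inr, if_neg (by decide), if_neg (by decide)]

end

lemma kil_FS (e1 : ℕ) (ι d : Fin c → ℕ) (ζ : Fin g1 → ℂ) (ζ' : Fin g2 → ℂ)
    (s r : Fin c → Fin 3) (v : MvPolynomial (Fin m × Fin c) ℂ)
    (hv : ∀ u, coeff u v ≠ 0 → ∀ j, ∑ i, u (i, j) = d j) (he : e1 + ∑ q, d q = g1) :
    kil r (FS e1 ι ζ ζ' s v) = C (∏ q, cC (r q - s q) ^ d q) * ∏ i, PP ι ζ ζ' s r v i := by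
  have h2 : (aeval (fun p : Fin m × Fin c => (X (p.1.succ, Sum.inl (p.2, r p.2)) :
      MvPolynomial (Fin (m + 1) × Cl c g1 g2) ℂ)) v) =
      rename (fun p : Fin m × Fin c => (p.1.succ, Sum.inl (p.2, r p.2))) v :=
    aeval_X_eq_rename _ v
  rw [FS, map_FF, FF_killed (ι := ι) (d := d) e1 g2 _ _ _ _ v hv (fun k => kil_z r ζ k)
    (fun q => cC (r q - s q)) (fun p => X (p.1.succ, Sum.inl (p.2, r p.2)))
    (fun q k => kil_q r s q k), Fintype.prod_sum_type, Fin.prod_univ_three, he, h2,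
    ← C_eq_algebraMap]
  simp only [kil_zero]
  rw [PP_0, PP_1, PP_2]
  rfl

lemma cls0 (q : Fin c) (t : Fin 3) :
    cls ((0 : Fin (m + 1)), (Sum.inl (q, t) : Cl c g1 g2)) = Sum.inl q := by
  rw [cls, if_pos rfl]
  rfl

lemma cls1 (y : Fin g1) :
    cls ((0 : Fin (m + 1)), (Sum.inr (Sum.inl y) : Cl c g1 g2)) = Sum.inr 0 := by
  rw [cls, if_pos rfl]
  rfl

lemma cls2 (y : Fin g2) :
    cls ((0 : Fin (m + 1)), (Sum.inr (Sum.inr y) : Cl c g1 g2)) = Sum.inr 1 := by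
  rw [cls, if_pos rfl]
  rfl

lemma cls3 (k : Fin m) (y : Cl c g1 g2) : cls (k.succ, y) = Sum.inr 2 := by
  rw [cls, if_neg (Fin.succ_ne_zero k)]

lemma coeff_T (ι : ℕ) (s : Fin c → Fin 3) (r : Fin c → Fin 3)
    (w : Fin (m + 1) × Cl c g1 g2 →₀ ℕ)
    (h1 : ∀ q t, t ≠ r q → w (0, Sum.inl (q, t)) = 1) (q : Fin c) :
    coeff (w.filter fun k => cls k = Sum.inl q)
        (lf (m := m + 1) (tp s q) cA 0 ^ 2 * lf (tp s q) cC 0 ^ ι) =
        if w (0, Sum.inl (q, r q)) = ι then coeff (et (r q - s q) ι) (lA ^ 2 * lC ^ ι)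
          else 0 := by
  classical
  have h5 : lf (m := m + 1) (tp (g1 := g1) (g2 := g2) s q) cA 0 ^ 2 *
      lf (tp s q) cC 0 ^ ι =
      rename (fun t => ((0 : Fin (m + 1)), tp (g1 := g1) (g2 := g2) s q t))
        (lA ^ 2 * lC ^ ι) := by
    rw [map_mul, map_pow, map_pow, ← lA_eq, ← lC_eq, ← lf_rename, ← lf_rename]
  rw [h5, coeff_rename_comap _ (fun t t' h => tp_inj s q (Prod.ext_iff.1 h).2) _ _
    (et (r q - s q) (w (0, Sum.inl (q, r q))))]
  · by_cases h : w (0, Sum.inl (q, r q)) = ι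
    · rw [if_pos h, h]
    · rw [if_neg h]
      by_contra h6
      have h7 := hom_triple ι h6
      rw [Finsupp.weight_apply, Finsupp.sum_fintype _ _ (by intro i; simp)] at h7
      simp only [Pi.one_apply, smul_eq_mul, mul_one, et_apply] at h7
      have h8 : ∑ x : Fin 3, (if x = r q - s q then w (0, Sum.inl (q, r q)) else 1) =
          w (0, Sum.inl (q, r q)) + 2 := by
        rw [← Finset.add_sum_erase _ _ (Finset.mem_univ (r q - s q)), if_pos rfl]
        congr 1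
        rw [Finset.sum_congr rfl fun x hx => if_neg (Finset.ne_of_mem_erase hx),
          Finset.sum_const, Finset.card_erase_of_mem (Finset.mem_univ _)]
        rfl
      rw [h8] at h7
      apply h
      omega
  · intro t
    have hf : (w.filter fun k => cls k = Sum.inl q) ((0 : Fin (m + 1)), tp s q t) =
        w ((0 : Fin (m + 1)), tp s q t) := by
      rw [Finsupp.filter_apply]
      exact if_pos (cls0 _ _)
    rw [et_apply, hf]
    by_cases ht : t = r q - s q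
    · rw [if_pos ht, ht, tp, sub_add_cancel]
    · rw [if_neg ht, tp, h1]
      intro h
      exact ht (by rw [← h, add_sub_cancel_right])
  · rintro ⟨i, y⟩ hk
    rw [Finsupp.filter_apply]
    by_cases hc : cls (i, y) = Sum.inl q
    · exfalso
      rcases Fin.eq_zero_or_eq_succ i with rfl | ⟨k, rfl⟩
      · rcases y with ⟨q', t⟩ | y | y
        · rw [cls0] at hc
          have hq := Sum.inl_injective hc
          subst hq
          exact hk (t - s q') (by rw [tp, sub_add_cancel])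
        · rw [cls1] at hc
          exact absurd hc (by simp)
        · rw [cls2] at hc
          exact absurd hc (by simp)
      · rw [cls3] at hc
        exact absurd hc (by simp)
    · rw [if_neg hc]

lemma coeff_G1 (ζ : Fin g1 → ℂ) (w : Fin (m + 1) × Cl c g1 g2 →₀ ℕ)
    (h2 : ∀ y, w (0, Sum.inr y) = 1) : coeff (w.filter fun k => cls k = Sum.inr 0)
      (lf (m := m + 1) (fun t => (Sum.inr (Sum.inl t) : Cl c g1 g2)) ζ 0 ^ g1) =
      (Nat.multinomial Finset.univ (fun _ : Fin g1 => 1) : ℕ) * ∏ t, ζ t := by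
  apply coeff_group
  · exact fun t t' h => Sum.inl_injective (Sum.inr_injective h)
  · intro t
    rw [Finsupp.filter_apply, if_pos (by exact cls1 _), h2]
  · rintro ⟨i, y⟩ hk
    rw [Finsupp.filter_apply]
    by_cases hc : cls (i, y) = Sum.inr 0
    · exfalso
      rcases Fin.eq_zero_or_eq_succ i with rfl | ⟨k, rfl⟩
      · rcases y with ⟨q', t⟩ | y | y
        · rw [cls0] at hc
          exact absurd hc (by simp)
        · exact hk y rfl
        · rw [cls2] at hc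
          exact absurd hc (by simp)
      · rw [cls3] at hc
        exact absurd hc (by simp)
    · rw [if_neg hc]

lemma coeff_G2 (ζ' : Fin g2 → ℂ) (w : Fin (m + 1) × Cl c g1 g2 →₀ ℕ)
    (h2 : ∀ y, w (0, Sum.inr y) = 1) : coeff (w.filter fun k => cls k = Sum.inr 1)
      (lf (m := m + 1) (fun t => (Sum.inr (Sum.inr t) : Cl c g1 g2)) ζ' 0 ^ g2) =
      (Nat.multinomial Finset.univ (fun _ : Fin g2 => 1) : ℕ) * ∏ t, ζ' t := by
  apply coeff_group
  · exact fun t t' h => Sum.inr_injective (Sum.inr_injective h)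
  · intro t
    rw [Finsupp.filter_apply, if_pos (by exact cls2 _), h2]
  · rintro ⟨i, y⟩ hk
    rw [Finsupp.filter_apply]
    by_cases hc : cls (i, y) = Sum.inr 1
    · exfalso
      rcases Fin.eq_zero_or_eq_succ i with rfl | ⟨k, rfl⟩
      · rcases y with ⟨q', t⟩ | y | y
        · rw [cls0] at hc
          exact absurd hc (by simp)
        · rw [cls1] at hc
          exact absurd hc (by simp)
        · exact hk y rfl
      · rw [cls3] at hc
        exact absurd hc (by simp)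
    · rw [if_neg hc]

lemma coeff_V (r : Fin c → Fin 3) (v : MvPolynomial (Fin m × Fin c) ℂ)
    (w : Fin (m + 1) × Cl c g1 g2 →₀ ℕ)
    (h3 : ∀ (k : Fin m) q t, t ≠ r q → w (k.succ, Sum.inl (q, t)) = 0)
    (h4 : ∀ (k : Fin m) y, w (k.succ, Sum.inr y) = 0)
    (α : Fin m × Fin c →₀ ℕ) (hα : ∀ p, α p = w (p.1.succ, Sum.inl (p.2, r p.2))) :
    coeff (w.filter fun k => cls k = Sum.inr 2)
      (rename (fun p : Fin m × Fin c => (p.1.succ, (Sum.inl (p.2, r p.2) : Cl c g1 g2))) v) =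
      coeff α v := by
  apply coeff_rename_comap
  · intro p p' h
    have h5 := Fin.succ_injective _ (Prod.ext_iff.1 h).1
    have h6 := (Prod.ext_iff.1 (Sum.inl_injective (Prod.ext_iff.1 h).2)).1
    exact Prod.ext h5 h6
  · intro p
    rw [Finsupp.filter_apply, if_pos (by exact cls3 _ _), hα]
  · rintro ⟨i, y⟩ hk
    rw [Finsupp.filter_apply]
    by_cases hc : cls (i, y) = Sum.inr 2
    · rw [if_pos (by exact hc)]
      rcases Fin.eq_zero_or_eq_succ i with rfl | ⟨k, rfl⟩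
      · exfalso
        rcases y with ⟨q', t⟩ | y | y
        · rw [cls0] at hc
          exact absurd hc (by simp)
        · rw [cls1] at hc
          exact absurd hc (by simp)
        · rw [cls2] at hc
          exact absurd hc (by simp)
      · rcases y with ⟨q', t⟩ | y
        · by_cases ht : t = r q'
          · exact absurd (by rw [ht]) (hk (k, q'))
          · exact h3 k q' t ht
        · exact h4 k y
    · rw [if_neg hc]

lemma PP_mem (ι : Fin c → ℕ) (ζ : Fin g1 → ℂ) (ζ' : Fin g2 → ℂ) (s r : Fin c → Fin 3)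
    (v : MvPolynomial (Fin m × Fin c) ℂ) (i : Fin c ⊕ Fin 3) :
    PP ι ζ ζ' s r v i ∈ supported ℂ
      {k : Fin (m + 1) × Cl c g1 g2 | cls k = i} := by
  rcases i with q | i
  · rw [PP_inl]
    refine Subalgebra.mul_mem _ (Subalgebra.pow_mem _ (lf_mem _ _ _ _ fun t => ?_) _)
      (Subalgebra.pow_mem _ (lf_mem _ _ _ _ fun t => ?_) _)
    · exact cls0 (m := m) (g1 := g1) (g2 := g2) q (t + s q)
    · exact cls0 (m := m) (g1 := g1) (g2 := g2) q (t + s q)
  · obtain rfl | rfl | rfl : i = 0 ∨ i = 1 ∨ i = 2 := by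
      revert i
      decide
    · rw [PP_0]
      refine Subalgebra.pow_mem _ (lf_mem _ _ _ _ fun t => ?_) _
      exact cls1 (m := m) (c := c) (g2 := g2) t
    · rw [PP_1]
      refine Subalgebra.pow_mem _ (lf_mem _ _ _ _ fun t => ?_) _
      exact cls2 (m := m) (c := c) (g1 := g1) t
    · rw [PP_2]
      refine rename_mem _ _ (fun p => ?_) _
      exact cls3 (c := c) (g1 := g1) (g2 := g2) p.1 (Sum.inl (p.2, r p.2))

/-- The coefficients at the transversal monomials. -/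
theorem coeff_FS (e1 : ℕ) (ι d : Fin c → ℕ) (ζ : Fin g1 → ℂ) (ζ' : Fin g2 → ℂ)
    (s : Fin c → Fin 3) (v : MvPolynomial (Fin m × Fin c) ℂ)
    (hv : ∀ u, coeff u v ≠ 0 → ∀ j, ∑ i, u (i, j) = d j) (he : e1 + ∑ q, d q = g1)
    (r : Fin c → Fin 3) (w : Fin (m + 1) × Cl c g1 g2 →₀ ℕ)
    (h1 : ∀ q t, t ≠ r q → w (0, Sum.inl (q, t)) = 1) (h2 : ∀ y, w (0, Sum.inr y) = 1)
    (h3 : ∀ (k : Fin m) q t, t ≠ r q → w (k.succ, Sum.inl (q, t)) = 0)
    (h4 : ∀ (k : Fin m) y, w (k.succ, Sum.inr y) = 0)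
    (α : Fin m × Fin c →₀ ℕ) (hα : ∀ p, α p = w (p.1.succ, Sum.inl (p.2, r p.2))) :
    (coeff w (FS e1 ι ζ ζ' s v) = kg ζ ζ' * (∏ q, kt (r q - s q) (ι q) (d q)) * coeff α v ∧
      ∀ q, w (0, Sum.inl (q, r q)) = ι q) ∨ (coeff w (FS e1 ι ζ ζ' s v) = 0 ∧
      ∃ q, w (0, Sum.inl (q, r q)) ≠ ι q) := by
  classical
  have hK : ∀ k, KI r k → w k = 0 := by
    rintro ⟨i, y⟩ ⟨hi, hy⟩
    obtain ⟨k, rfl⟩ := Fin.exists_succ_eq.2 (show i ≠ 0 from hi)
    rcases y with ⟨q, t⟩ | y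
    · exact h3 k q t fun h => hy q (by rw [h])
    · exact h4 k y
  have hw : coeff w (kil r (FS e1 ι ζ ζ' s v)) = coeff w (FS e1 ι ζ ζ' s v) :=
    coeff_kill (KI r) w hK (FS e1 ι ζ ζ' s v)
  rw [← hw, kil_FS e1 ι d ζ ζ' s r v hv he, coeff_C_mul,
    coeff_prod_cls cls (PP ι ζ ζ' s r v) (PP_mem ι ζ ζ' s r v) Finset.univ w
      (fun k hk => absurd (Finset.mem_univ _) hk), Fintype.prod_sum_type, Fin.prod_univ_three]
  have e0 : coeff (w.filter fun k => cls k = Sum.inr 0) (PP ι ζ ζ' s r v (Sum.inr 0)) =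
    (Nat.multinomial Finset.univ (fun _ : Fin g1 => 1) : ℕ) * ∏ t, ζ t := by
    rw [PP_0]
    exact coeff_G1 ζ w h2
  have e1' : coeff (w.filter fun k => cls k = Sum.inr 1) (PP ι ζ ζ' s r v (Sum.inr 1)) =
    (Nat.multinomial Finset.univ (fun _ : Fin g2 => 1) : ℕ) * ∏ t, ζ' t := by
    rw [PP_1]
    exact coeff_G2 ζ' w h2
  have e2 : coeff (w.filter fun k => cls k = Sum.inr 2) (PP ι ζ ζ' s r v (Sum.inr 2)) =
    coeff α v := by
    rw [PP_2]
    exact coeff_V r v w h3 h4 α hα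
  have e3 : ∀ q, coeff (w.filter fun k => cls k = Sum.inl q) (PP ι ζ ζ' s r v (Sum.inl q)) =
      if w (0, Sum.inl (q, r q)) = ι q then coeff (et (r q - s q) (ι q)) (lA ^ 2 * lC ^ ι q)
        else 0 := fun q => coeff_T (ι q) s r w h1 q
  rw [e0, e1', e2, Finset.prod_congr rfl fun q _ => e3 q]
  by_cases hall : ∀ q, w (0, Sum.inl (q, r q)) = ι q
  · left
    refine ⟨?_, hall⟩
    rw [Finset.prod_congr rfl fun q _ => if_pos (hall q)]
    unfold kt kg
    rw [Finset.prod_mul_distrib]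
    ring
  · right
    push Not at hall
    obtain ⟨q, hq⟩ := hall
    refine ⟨?_, q, hq⟩
    have h9 : ∏ q, (if w (0, Sum.inl (q, r q)) = ι q then
        coeff (et (r q - s q) (ι q)) (lA ^ 2 * lC ^ ι q) else 0) = 0 :=
      Finset.prod_eq_zero (Finset.mem_univ q) (if_neg hq)
    rw [h9]
    ring

end transversal

end Vale.Agent.P181.ST.H575
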