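import Vale.Agent.P181.DGx.H831.Mono
import Vale.Agent.P181.SZR1a.TI

set_option autoImplicit false

/-!
# P181, ST (T2): one more point
-/

open MvPolynomial

namespace Vale.Agent.P181.ST.H575

open Vale.Agent.P181.T4 (HW)
open Vale.Agent.P181.SZ (TI mem_TI)
open Vale.Agent.P181.SZT0 (rc rc_inj inj_pr coeff_rc rc_mem_HW)
open Vale.Agent.P181.DGx.H831 (pderiv_rc exists_perm_of_range range_perm_succAbove)

variable {M n a : ℕ} {mu : Fin M → ℕ}

/-- The sum over the columns left out. -/
noncomputable def upc (M n : ℕ) :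
    MvPolynomial (Fin M × Fin n) ℂ →ₗ[ℂ] MvPolynomial (Fin M × Fin (n + 1)) ℂ :=
  ∑ j : Fin (n + 1), (rc M j.succAbove).toLinearMap

lemma upc_apply (f : MvPolynomial (Fin M × Fin n) ℂ) :
    upc M n f = ∑ j : Fin (n + 1), rc M j.succAbove f := by
  rw [upc, LinearMap.sum_apply]
  rfl

/-- A permutation moves the column left out. -/
lemma rename_rc_succAbove (s : Equiv.Perm (Fin (n + 1))) (j : Fin (n + 1))
    {f : MvPolynomial (Fin M × Fin n) ℂ} (hf : f ∈ TI n a M mu) :
    rename (fun p : Fin M × Fin (n + 1) => (p.1, s p.2)) (rc M j.succAbove f)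
      = rc M (s j).succAbove f := by
  have hg : Function.Injective fun x => s (j.succAbove x) :=
    fun x y h => Fin.succAbove_right_injective (s.injective h)
  obtain ⟨π, hπ⟩ := exists_perm_of_range (g := fun x => s (j.succAbove x))
    (g' := (s j).succAbove) hg Fin.succAbove_right_injective (range_perm_succAbove s j)
  have h1 := (mem_TI.1 hf).2.1 π
  conv_rhs => rw [rc]
  have h2 : rename (fun p : Fin M × Fin n => (p.1, (s j).succAbove p.2)) f =
      rename (fun p : Fin M × Fin n => (p.1, s (j.succAbove p.2)))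
        (rename (fun p : Fin M × Fin n => (p.1, π p.2)) f) := by
    rw [rename_rename]
    congr 2
    funext p
    exact congrArg (fun x => (p.1, x)) (hπ p.2)
  rw [h2, h1, rc, rename_rename]
  rfl

lemma upc_mem {f : MvPolynomial (Fin M × Fin n) ℂ}
    (hf : f ∈ TI n a M mu) : upc M n f ∈ TI (n + 1) a M mu := by
  classical
  obtain ⟨h0, h2, h1, h3⟩ := mem_TI.1 hf
  rw [upc_apply]
  refine mem_TI.2 ⟨?_, ?_, ?_, ?_⟩
  · exact Submodule.sum_mem _ fun j _ => (rc_mem_HW Fin.succAbove_right_injective).2 h0
  · intro s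
    rw [map_sum, Finset.sum_congr rfl fun j _ => rename_rc_succAbove s j hf]
    exact Equiv.sum_comp s fun j => rc M j.succAbove f
  · intro v hv l
    rw [coeff_sum] at hv
    obtain ⟨j, _, hj⟩ := Finset.exists_ne_zero_of_sum_ne_zero hv
    obtain ⟨u, hu, h4, h5⟩ := coeff_rc Fin.succAbove_right_injective hj
    by_cases hl : l = j
    · have h6 : ∑ i, v (i, l) = 0 := by
        apply Finset.sum_eq_zero
        intro i _
        apply h5
        rintro ⟨x, hx⟩
        exact Fin.succAbove_ne j x (hx.trans hl)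
      omega
    · obtain ⟨x, hx⟩ := Fin.exists_succAbove_eq hl
      have h6 : ∑ i, v (i, l) = ∑ i, u (i, x) := by
        apply Finset.sum_congr rfl
        intro i _
        have h7 := h4 i x
        rw [hx] at h7
        exact h7
      rw [h6]
      exact h1 u hu x
  · intro i
    have h4 : ∀ j : Fin (n + 1), ∑ l : Fin (n + 1), pderiv (i, l) (rc M j.succAbove f) = 0 := by
      intro j
      rw [Fin.sum_univ_succAbove _ j]
      have h5 : pderiv (i, j) (rc M j.succAbove f) = 0 := by
        apply pderiv_eq_zero_of_notMem_vars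
        intro h7
        have h8 := vars_rename (fun p : Fin M × Fin n => (p.1, j.succAbove p.2)) f h7
        rw [Finset.mem_image] at h8
        obtain ⟨⟨a, b⟩, _, hab⟩ := h8
        exact Fin.succAbove_ne j b (congrArg Prod.snd hab)
      have h6 : ∀ x : Fin n, pderiv (i, j.succAbove x) (rc M j.succAbove f) =
          rc M j.succAbove (pderiv (i, x) f) :=
        fun x => pderiv_rc Fin.succAbove_right_injective i x f
      rw [h5, zero_add, Finset.sum_congr rfl fun x _ => h6 x, ← map_sum, h3 i, map_zero]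
    have h7 : ∀ l : Fin (n + 1), pderiv (i, l) (∑ j : Fin (n + 1), rc M j.succAbove f)
        = ∑ j : Fin (n + 1), pderiv (i, l) (rc M j.succAbove f) :=
      fun l => map_sum _ _ _
    rw [Finset.sum_congr rfl fun l _ => h7 l, Finset.sum_comm]
    exact Finset.sum_eq_zero fun j _ => h4 j

/-- The monomial with an empty last column. -/
noncomputable def exl (v : Fin M × Fin n →₀ ℕ) : Fin M × Fin (n + 1) →₀ ℕ :=
  Finsupp.mapDomain (fun p : Fin M × Fin n => (p.1, (Fin.last n).succAbove p.2)) v

lemma exl_last (v : Fin M × Fin n →₀ ℕ) (i : Fin M) : exl v (i, Fin.last n) = 0 := by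
  apply Finsupp.mapDomain_of_notMem_range
  rintro ⟨⟨a, b⟩, hab⟩
  exact Fin.succAbove_ne _ b (congrArg Prod.snd hab)

/-- The coefficient at a monomial with an empty last column. -/
lemma coeff_rc_exl {f : MvPolynomial (Fin M × Fin n) ℂ} (hf : f ∈ TI n a M mu)
    (v : Fin M × Fin n →₀ ℕ) (j : Fin (n + 1)) :
    coeff (exl v) (rc M j.succAbove f)
      = open scoped Classical in if ∀ i, exl v (i, j) = 0 then coeff v f else 0 := by
  classical
  split_ifs with h
  · have h1 := rename_rc_succAbove (Equiv.swap j (Fin.last n)) (Fin.last n) hf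
    rw [Equiv.swap_apply_right] at h1
    rw [← h1]
    have hin : Function.Injective (fun p : Fin M × Fin (n + 1) =>
        (p.1, Equiv.swap j (Fin.last n) p.2)) := inj_pr (Equiv.injective _)
    have h2 : Finsupp.mapDomain (fun p : Fin M × Fin (n + 1) =>
        (p.1, Equiv.swap j (Fin.last n) p.2)) (exl v) = exl v := by
      ext ⟨i, l⟩
      obtain ⟨l', hl'⟩ : ∃ l', Equiv.swap j (Fin.last n) l' = l :=
        ⟨Equiv.swap j (Fin.last n) l, by simp⟩
      have h3 := Finsupp.mapDomain_apply hin (exl v) (i, l')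
      simp only [hl'] at h3
      rw [h3, ← hl']
      by_cases ha : l' = j
      · subst ha
        rw [Equiv.swap_apply_left, h i, exl_last]
      · by_cases hb : l' = Fin.last n
        · subst hb
          rw [Equiv.swap_apply_right, h i, exl_last]
        · rw [Equiv.swap_apply_of_ne_of_ne ha hb]
    rw [← h2, coeff_rename_mapDomain _ hin, exl]
    exact coeff_rename_mapDomain _ (inj_pr Fin.succAbove_right_injective) f v
  · by_contra h1
    obtain ⟨u, hu, h4, h5⟩ := coeff_rc Fin.succAbove_right_injective h1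
    apply h
    intro i
    apply h5
    rintro ⟨x, hx⟩
    exact Fin.succAbove_ne j x hx

lemma upc_inj {f : MvPolynomial (Fin M × Fin n) ℂ} (hf : f ∈ TI n a M mu)
    (h : upc M n f = 0) : f = 0 := by
  classical
  apply MvPolynomial.ext
  intro v
  rw [coeff_zero]
  have h1 : coeff (exl v) (upc M n f) = 0 := by rw [h, coeff_zero]
  rw [upc_apply, coeff_sum, Finset.sum_congr rfl fun j _ => coeff_rc_exl hf v j,
    Finset.sum_ite, Finset.sum_const_zero, add_zero, Finset.sum_const, nsmul_eq_mul,
    mul_eq_zero] at h1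
  rcases h1 with h1 | h1
  · exfalso
    rw [Nat.cast_eq_zero, Finset.card_eq_zero] at h1
    have h2 : Fin.last n ∈ (Finset.univ.filter fun j : Fin (n + 1) =>
        ∀ i, exl v (i, j) = 0) :=
      Finset.mem_filter.2 ⟨Finset.mem_univ _, fun i => exl_last v i⟩
    rw [h1] at h2
    exact absurd h2 (Finset.notMem_empty _)
  · exact h1

/-- No monomial of `upc f` uses all columns. -/
lemma coeff_upc (f : MvPolynomial (Fin M × Fin n) ℂ) (w : Fin M × Fin (n + 1) →₀ ℕ)
    (hw : ∀ l, ∃ i, w (i, l) ≠ 0) : coeff w (upc M n f) = 0 := by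
  rw [upc_apply, coeff_sum]
  refine Finset.sum_eq_zero fun j _ => ?_
  by_contra h1
  obtain ⟨u, hu, h4, h5⟩ := coeff_rc Fin.succAbove_right_injective h1
  obtain ⟨i, hi⟩ := hw j
  apply hi
  apply h5
  rintro ⟨x, hx⟩
  exact Fin.succAbove_ne j x hx

end Vale.Agent.P181.ST.H575
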