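import Vale.Agent.P181.ST.H575.Sym
import Vale.Agent.P181.ST.H575.Up

set_option autoImplicit false

/-!
# P181, ST (T2): the lower bound `LowG`
-/

open MvPolynomial

namespace Vale.Agent.P181.ST.H575

open Vale.Agent.P181.T4 (HW)
open Vale.Agent.P181.SZ (TI mem_TI tl)
open Vale.Agent.P181.SZR5 (ren ren_row)
open Vale.Agent.P181.ST.H607 (kap kap_ne)
open Vale.Agent.P181.ST.H775 (FV FV_apply Ad_FV deg_group gr dG ZF ZG AF CF phiF RF kA kC)
open Vale.Agent.P181.DH.H674 (Ad)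

/-- Nonzero coefficients with sum zero. -/
lemma exists_gam (g : ℕ) (hg : 2 ≤ g) : ∃ ga : Fin g → ℂ, ∑ t, ga t = 0 ∧ ∀ t, ga t ≠ 0 := by
  obtain ⟨g, rfl⟩ : ∃ k, g = k + 2 := ⟨g - 2, by omega⟩
  refine ⟨Fin.cons (-((g : ℂ) + 1)) fun _ => 1, ?_, fun t => ?_⟩
  · rw [Fin.sum_univ_succ]
    simp only [Fin.cons_zero, Fin.cons_succ, Finset.sum_const, Finset.card_univ, Fintype.card_fin,
      nsmul_eq_mul, mul_one]
    push_cast
    ring
  · refine Fin.cases ?_ (fun k => ?_) t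
    · rw [Fin.cons_zero]
      intro h
      have h1 : ((g + 1 : ℕ) : ℂ) = 0 := by
        push_cast
        exact neg_eq_zero.1 h
      exact absurd (Nat.cast_eq_zero.1 h1) (by omega)
    · rw [Fin.cons_succ]
      exact one_ne_zero

/-- A sum of terms which are `0` or `x`. -/
lemma sum_zero_or {E : Type} [Fintype E] (T : E → ℂ) (x : ℂ) (hx : x ≠ 0)
    (h : ∀ e, T e = 0 ∨ T e = x) (e0 : E) (h0 : T e0 = x) : ∑ e, T e ≠ 0 := by
  classical
  have h1 : ∀ e, T e = if T e = x then x else 0 := by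
    intro e
    rcases h e with h2 | h2
    · rw [h2, if_neg (Ne.symm hx)]
    · rw [h2, if_pos rfl]
  rw [Finset.sum_congr rfl fun e _ => h1 e, ← Finset.sum_filter, Finset.sum_const, nsmul_eq_mul]
  refine mul_ne_zero (Nat.cast_ne_zero.2 ?_) hx
  rw [Finset.card_ne_zero]
  exact ⟨e0, Finset.mem_filter.2 ⟨Finset.mem_univ _, h0⟩⟩

/-- The data of one multiset of labels. -/
structure Dat (m N : ℕ) where
  /-- number of letters -/
  c : ℕ
  /-- labels -/
  lab : Fin c → ℕ × ℕ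
  /-- first group -/
  g1 : ℕ
  /-- second group -/
  g2 : ℕ
  /-- coefficients -/
  ga : Fin g1 → ℂ
  /-- coefficients -/
  gb : Fin g2 → ℂ
  card : 3 * c + (g1 + g2) = N
  ga_ne : ∀ t, ga t ≠ 0
  gb_ne : ∀ t, gb t ≠ 0
  ok : ∀ q, (1 ≤ (lab q).1 ∧ 3 ≤ (lab q).1 + (lab q).2) ∨ ((lab q).1 = 0 ∧ 2 ≤ (lab q).2)

variable {m N : ℕ}

lemma Dat.ok2 (d : Dat m N) (q : Fin d.c) : 2 ≤ (d.lab q).1 + (d.lab q).2 := by
  have := d.ok q
  omega

/-- The multiset of labels. -/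
noncomputable def Dat.ms (d : Dat m N) : Multiset (ℕ × ℕ) := Finset.univ.val.map d.lab

/-- The symmetrized polynomial. -/
noncomputable def Dat.psi (d : Dat m N) (D : ℕ) :
    MvPolynomial (Fin m × Fin d.c) ℂ →ₗ[ℂ] MvPolynomial (Fin (m + 1) × Fin N) ℂ :=
  Psi N d.ga d.gb D d.lab

lemma Dat.exists_equiv (d : Dat m N) : Nonempty (Cl d.c d.g1 d.g2 ≃ Fin N) := by
  refine ⟨Fintype.equivFinOfCardEq ?_⟩
  rw [Fintype.card_sum, Fintype.card_sum, Fintype.card_prod, Fintype.card_fin, Fintype.card_fin,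
    Fintype.card_fin, Fintype.card_fin]
  have := d.card
  omega

/-- The monomial. -/
noncomputable def Dat.mon (d : Dat m N) (e : Cl d.c d.g1 d.g2 ≃ Fin N)
    (α : Fin m × Fin d.c →₀ ℕ) : Fin (m + 1) × Fin N →₀ ℕ :=
  Finsupp.equivFunOnFinite.symm fun x =>
    Sum.elim (fun y => if y.2 = 0 then Fin.cases (d.lab y.1).1 (fun k => α (k, y.1)) x.1
      else Fin.cases (motive := fun _ => ℕ) 1 (fun _ => 0) x.1)
      (fun _ => Fin.cases (motive := fun _ => ℕ) 1 (fun _ => 0) x.1) (e.symm x.2)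

lemma Dat.mon_apply (d : Dat m N) (e : Cl d.c d.g1 d.g2 ≃ Fin N)
    (α : Fin m × Fin d.c →₀ ℕ) (i : Fin (m + 1)) (y : Cl d.c d.g1 d.g2) :
    d.mon e α (i, e y) = Sum.elim (fun y : Fin d.c × Fin 3 => if y.2 = 0 then
      Fin.cases (d.lab y.1).1 (fun k => α (k, y.1)) i
      else Fin.cases (motive := fun _ => ℕ) 1 (fun _ => 0) i)
      (fun _ => Fin.cases (motive := fun _ => ℕ) 1 (fun _ => 0) i) y := by
  change Sum.elim _ _ (e.symm (e y)) = _
  rw [e.symm_apply_apply]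

/-- The properties of the monomial. -/
lemma Dat.mon0 (d : Dat m N) (e : Cl d.c d.g1 d.g2 ≃ Fin N) (α : Fin m × Fin d.c →₀ ℕ)
    (q : Fin d.c) : d.mon e α (0, e (Sum.inl (q, 0))) = (d.lab q).1 := by
  rw [d.mon_apply]
  rfl

lemma Dat.mon1 (d : Dat m N) (e : Cl d.c d.g1 d.g2 ≃ Fin N) (α : Fin m × Fin d.c →₀ ℕ)
    (q : Fin d.c) (k : Fin m) : d.mon e α (k.succ, e (Sum.inl (q, 0))) = α (k, q) := by
  rw [d.mon_apply]
  rfl

lemma Dat.mon2 (d : Dat m N) (e : Cl d.c d.g1 d.g2 ≃ Fin N) (α : Fin m × Fin d.c →₀ ℕ)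
    (x : Fin N) (hx : ∀ q, e (Sum.inl (q, 0)) ≠ x) :
    d.mon e α (0, x) = 1 ∧ ∀ k : Fin m, d.mon e α (k.succ, x) = 0 := by
  obtain ⟨y, rfl⟩ := e.surjective x
  rcases y with ⟨q, t⟩ | y
  · have ht : t ≠ 0 := fun h => hx q (by rw [h])
    refine ⟨?_, fun k => ?_⟩
    · rw [d.mon_apply, Sum.elim_inl, if_neg ht]
      rfl
    · rw [d.mon_apply, Sum.elim_inl, if_neg ht]
      rfl
  · refine ⟨?_, fun k => ?_⟩
    · rw [d.mon_apply]
      rfl
    · rw [d.mon_apply]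
      rfl

/-- The coefficient of another polynomial at the monomial of `d`. -/
lemma Dat.other (d d' : Dat m N) (hc : d'.c ≤ d.c) (hne : d.ms ≠ d'.ms) {nu : Fin m → ℕ}
    {v : MvPolynomial (Fin m × Fin d.c) ℂ} (hv : v ∈ GP m (Fin d.c) d.lab nu)
    (hD : ∑ i, nu i ≤ d.g1) (hs : ∑ q, (d.lab q).2 = ∑ i, nu i)
    (e0 : Cl d'.c d'.g1 d'.g2 ≃ Fin N) (α : Fin m × Fin d'.c →₀ ℕ)
    (hα : ∀ q, ∑ k, α (k, q) = (d'.lab q).2) :
    coeff (d'.mon e0 α) (d.psi (∑ i, nu i) v) = 0 := by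
  classical
  have h1 := coeff_Psi N d.ga d.gb (∑ i, nu i) d.lab v (d'.mon e0 α)
  refine (mul_eq_zero.1 (h1.trans (Finset.sum_eq_zero fun e _ => ?_))).resolve_left ?_
  swap
  · intro h2
    rw [Nat.cast_eq_zero, Fintype.card_eq_zero_iff] at h2
    exact absurd h2 (not_isEmpty_iff.2 ⟨fun _ => 0⟩)
  · rcases key hv hD hs d.ok2 hc e (d'.mon e0 α) (fun q => e0 (Sum.inl (q, 0))) d'.lab α hα
      (fun q => d'.mon0 e0 α q) (fun q k => d'.mon1 e0 α q k) (fun x hx => d'.mon2 e0 α x hx)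
      with h2 | ⟨h, hb, hl, _⟩
    · exact h2
    · exfalso
      apply hne
      have h3 : d.lab = d'.lab ∘ h := funext hl
      rw [Dat.ms, Dat.ms, h3, ← Multiset.map_map]
      congr 1
      have h4 := Finset.map_univ_equiv (Equiv.ofBijective h hb)
      have h5 := congrArg Finset.val h4
      rw [Finset.map_val] at h5
      exact h5

/-- The coefficient of the polynomial itself. -/
lemma Dat.self (d : Dat m N) {nu : Fin m → ℕ}
    {v : MvPolynomial (Fin m × Fin d.c) ℂ} (hv : v ∈ GP m (Fin d.c) d.lab nu)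
    (hD : ∑ i, nu i ≤ d.g1) (hs : ∑ q, (d.lab q).2 = ∑ i, nu i)
    (e0 : Cl d.c d.g1 d.g2 ≃ Fin N) (α : Fin m × Fin d.c →₀ ℕ) (hα0 : coeff α v ≠ 0) :
    coeff (d.mon e0 α) (d.psi (∑ i, nu i) v) ≠ 0 := by
  classical
  have hα : ∀ q, ∑ k, α (k, q) = (d.lab q).2 := fun q => hv.2.1 α hα0 q
  have h1 := coeff_Psi N d.ga d.gb (∑ i, nu i) d.lab v (d.mon e0 α)
  intro h0
  change coeff (d.mon e0 α) (Psi N d.ga d.gb (∑ i, nu i) d.lab v) = 0 at h0
  rw [h0, mul_zero] at h1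
  refine sum_zero_or (E := Cl d.c d.g1 d.g2 ≃ Fin N) _
    (kg d.ga d.gb * (∏ q, kap (d.lab q).1 (d.lab q).2) * coeff α v) ?_ (fun e => ?_) e0 ?_ h1.symm
  · exact mul_ne_zero (mul_ne_zero (kg_ne _ _ d.ga_ne d.gb_ne)
      (Finset.prod_ne_zero_iff.2 fun q _ => kap_ne _ _ (d.ok q))) hα0
  · rcases key hv hD hs d.ok2 le_rfl e (d.mon e0 α) (fun q => e0 (Sum.inl (q, 0))) d.lab α hα
      (fun q => d.mon0 e0 α q) (fun q k => d.mon1 e0 α q k) (fun x hx => d.mon2 e0 α x hx)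
      with h2 | ⟨h, hb, hl, h2⟩
    · exact Or.inl h2
    · right
      rw [h2]
      congr 1
      have h3 := hv.2.2 (Equiv.ofBijective h hb) (fun j => (hl j).symm)
      conv_rhs => rw [← h3]
      have h4 := coeff_ren (M := m) (Equiv.ofBijective h hb) α v
      change coeff _ v = coeff α (ren m (Equiv.ofBijective h hb) v)
      rw [h4]
      rfl
  · have k1 : ∀ q t, t ≠ (0 : Fin 3) → pull e0 (d.mon e0 α) (0, Sum.inl (q, t)) = 1 :=
      fun q t ht => (d.mon2 e0 α (e0 (Sum.inl (q, t))) fun q' h => ht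
        (Prod.ext_iff.1 (Sum.inl_injective (e0.injective h))).2.symm).1
    have k2 : ∀ y, pull e0 (d.mon e0 α) (0, Sum.inr y) = 1 := fun y =>
      (d.mon2 e0 α (e0 (Sum.inr y)) fun q' h => absurd (e0.injective h) (by simp)).1
    have k3 : ∀ (k : Fin m) q t, t ≠ (0 : Fin 3) →
        pull e0 (d.mon e0 α) (k.succ, Sum.inl (q, t)) = 0 :=
      fun k q t ht => (d.mon2 e0 α (e0 (Sum.inl (q, t))) fun q' h => ht
        (Prod.ext_iff.1 (Sum.inl_injective (e0.injective h))).2.symm).2 k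
    have k4 : ∀ (k : Fin m) y, pull e0 (d.mon e0 α) (k.succ, Sum.inr y) = 0 := fun k y =>
      (d.mon2 e0 α (e0 (Sum.inr y)) fun q' h => absurd (e0.injective h) (by simp)).2 k
    have k5 : ∀ x : Fin m × Fin d.c, α x = pull e0 (d.mon e0 α) (x.1.succ, Sum.inl (x.2, 0)) :=
      fun x => (d.mon1 e0 α x.2 x.1).symm
    rcases sum_FS (g1 := d.g1) (g2 := d.g2) (d.g1 - ∑ i, nu i) (fun q => (d.lab q).1)
      (fun q => (d.lab q).2) d.ga d.gb v (fun u hu j => hv.2.1 u hu j) (by rw [hs]; omega)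
      (fun _ => 0) (pull e0 (d.mon e0 α)) k1 k2 k3 k4 α k5 with ⟨h2, _⟩ | ⟨_, h2⟩
    · exact h2
    · exact absurd (fun q => d.mon0 e0 α q) h2

/-- The monomial uses all columns. -/
lemma Dat.full (d : Dat m N) (e0 : Cl d.c d.g1 d.g2 ≃ Fin N) (α : Fin m × Fin d.c →₀ ℕ)
    (hα : ∀ q, ∑ k, α (k, q) = (d.lab q).2) (x : Fin N) : ∃ i, d.mon e0 α (i, x) ≠ 0 := by
  classical
  by_cases hx : ∀ q, e0 (Sum.inl (q, 0)) ≠ x
  · exact ⟨0, by rw [(d.mon2 e0 α x hx).1]; exact one_ne_zero⟩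
  · push Not at hx
    obtain ⟨q, rfl⟩ := hx
    by_contra h
    push Not at h
    have h1 := h 0
    rw [d.mon0] at h1
    have h2 : ∑ k, α (k, q) = 0 := Finset.sum_eq_zero fun k _ => by
      have := h k.succ
      rwa [d.mon1] at this
    have h3 := d.ok2 q
    have h4 := hα q
    omega

/-- Independence. -/
theorem indep {n : ℕ} {I : Type} [Fintype I] (d : I → Dat m (n + 1)) {nu : Fin m → ℕ}
    (hd : ∀ i j, (d i).ms = (d j).ms → i = j) (hD : ∀ i, ∑ k, nu k ≤ (d i).g1)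
    (hs : ∀ i, ∑ q, ((d i).lab q).2 = ∑ k, nu k) (a : ℕ) (mu : Fin (m + 1) → ℕ)
    (g : MvPolynomial (Fin (m + 1) × Fin n) ℂ) (hg : g ∈ TI n a (m + 1) mu)
    (v : ∀ i, MvPolynomial (Fin m × Fin (d i).c) ℂ)
    (hv : ∀ i, v i ∈ GP m (Fin (d i).c) (d i).lab nu)
    (h : upc (m + 1) n g + ∑ i, (d i).psi (∑ k, nu k) (v i) = 0) : g = 0 ∧ ∀ i, v i = 0 := by
  classical
  have hall : ∀ i, v i = 0 := by
    by_contra hne
    push Not at hne
    obtain ⟨i0, hi0⟩ := hne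
    obtain ⟨i, hi, hmin⟩ := Finset.exists_min_image
      (Finset.univ.filter fun i => v i ≠ 0) (fun i => (d i).c)
      ⟨i0, Finset.mem_filter.2 ⟨Finset.mem_univ _, hi0⟩⟩
    have hi' : v i ≠ 0 := (Finset.mem_filter.1 hi).2
    obtain ⟨α, hα⟩ : ∃ α, coeff α (v i) ≠ 0 := by
      by_contra hno
      push Not at hno
      exact hi' (MvPolynomial.ext _ _ fun α => by rw [hno, coeff_zero])
    obtain ⟨e0⟩ := (d i).exists_equiv
    have hα' : ∀ q, ∑ k, α (k, q) = ((d i).lab q).2 := fun q => (hv i).2.1 α hα q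
    have h1 := congrArg (coeff ((d i).mon e0 α)) h
    rw [coeff_add, coeff_upc g _ ((d i).full e0 α hα'), zero_add, coeff_zero, coeff_sum,
      Finset.sum_eq_single i] at h1
    · exact (d i).self (hv i) (hD i) (hs i) e0 α hα h1
    · intro j _ hj
      by_cases hvj : v j = 0
      · rw [hvj, map_zero, coeff_zero]
      · exact (d j).other (d i) (hmin j (Finset.mem_filter.2 ⟨Finset.mem_univ _, hvj⟩))
          (fun h2 => hj (hd j i h2)) (hv j) (hD j) (hs j) e0 α hα'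
    · intro h2
      exact absurd (Finset.mem_univ _) h2
  refine ⟨upc_inj hg ?_, hall⟩
  have h2 : ∑ i, (d i).psi (∑ k, nu k) (v i) = 0 := Finset.sum_eq_zero fun i _ => by
    rw [hall i, map_zero]
  rw [h2, add_zero] at h
  exact h

/-- A sum of linear maps. -/
lemma finrank_add_le {V U : Type} [AddCommGroup V] [Module ℂ V] [AddCommGroup U] [Module ℂ U]
    [FiniteDimensional ℂ V] [FiniteDimensional ℂ U] {I : Type} [Fintype I] {E : I → Type}
    [∀ i, AddCommGroup (E i)] [∀ i, Module ℂ (E i)] [∀ i, FiniteDimensional ℂ (E i)]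
    (A : V →ₗ[ℂ] U) (B : ∀ i, E i →ₗ[ℂ] U)
    (h : ∀ (g : V) (v : ∀ i, E i), A g + ∑ i, B i (v i) = 0 → g = 0 ∧ ∀ i, v i = 0) :
    Module.finrank ℂ V + ∑ i, Module.finrank ℂ (E i) ≤ Module.finrank ℂ U := by
  classical
  let T : (V × (∀ i, E i)) →ₗ[ℂ] U :=
    A ∘ₗ LinearMap.fst ℂ _ _ + (∑ i, B i ∘ₗ LinearMap.proj i) ∘ₗ LinearMap.snd ℂ _ _
  have hT : ∀ (g : V) (v : ∀ i, E i), T (g, v) = A g + ∑ i, B i (v i) := by
    intro g v
    change A g + (∑ i, B i ∘ₗ LinearMap.proj i) v = _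
    rw [LinearMap.sum_apply]
    rfl
  have hinj : Function.Injective T := by
    rw [← LinearMap.ker_eq_bot, LinearMap.ker_eq_bot']
    rintro ⟨g, v⟩ hx
    rw [hT] at hx
    obtain ⟨h1, h2⟩ := h g v hx
    exact Prod.ext h1 (funext h2)
  have h5 := LinearMap.finrank_le_finrank_of_injective hinj
  rwa [Module.finrank_prod, Module.finrank_pi_fintype] at h5

/-- The inequality of the dimensions. -/
theorem dim_le {n : ℕ} {I : Type} [Fintype I] (d : I → Dat m (n + 1)) {nu : Fin m → ℕ}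
    (hd : ∀ i j, (d i).ms = (d j).ms → i = j) (hD : ∀ i, ∑ k, nu k ≤ (d i).g1)
    (hs : ∀ i, ∑ q, ((d i).lab q).2 = ∑ k, nu k) (a : ℕ) (mu : Fin (m + 1) → ℕ)
    (hmem : ∀ i, ∀ v ∈ GP m (Fin (d i).c) (d i).lab nu,
      (d i).psi (∑ k, nu k) v ∈ TI (n + 1) a (m + 1) mu) :
    Module.finrank ℂ (TI n a (m + 1) mu) +
        ∑ i, Module.finrank ℂ (GP m (Fin (d i).c) (d i).lab nu) ≤
      Module.finrank ℂ (TI (n + 1) a (m + 1) mu) := by
  refine finrank_add_le (E := fun i => GP m (Fin (d i).c) (d i).lab nu)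
    ((upc (m + 1) n).restrict (p := TI n a (m + 1) mu) (q := TI (n + 1) a (m + 1) mu)
      fun f hf => upc_mem hf)
    (fun i => ((d i).psi (∑ k, nu k)).restrict (p := GP m (Fin (d i).c) (d i).lab nu)
      (q := TI (n + 1) a (m + 1) mu) fun v hv => hmem i v hv) fun g v h => ?_
  have h1 : upc (m + 1) n g.1 + ∑ i, (d i).psi (∑ k, nu k) (v i).1 = 0 := by
    have h0 := congrArg Subtype.val h
    rw [Submodule.coe_add, Submodule.coe_sum, Submodule.coe_zero] at h0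
    simp only [LinearMap.coe_restrict_apply] at h0
    exact h0
  obtain ⟨h2, h3⟩ := indep d hd hD hs a mu g.1 g.2
    (fun i => (v i).1) (fun i => (v i).2) h1
  exact ⟨Subtype.ext h2, fun i => Subtype.ext (h3 i)⟩

lemma map_get (P : Multiset (ℕ × ℕ)) :
    (Finset.univ : Finset (Fin P.toList.length)).val.map (fun j => P.toList.get j) = P := by
  rw [Fin.univ_val_map, List.ofFn_get, Multiset.coe_toList]

/-- The data for a multiset of labels. -/
noncomputable def mk (m : ℕ) (a n : ℕ) (P : Multiset (ℕ × ℕ))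
    (h : ∀ x ∈ P, (1 ≤ x.1 ∧ 3 ≤ x.1 + x.2) ∨ (x.1 = 0 ∧ 2 ≤ x.2))
    (h1 : 2 ≤ min a (n + 1 - 3 * P.toList.length - 2))
    (h2 : 2 ≤ n + 1 - 3 * P.toList.length - min a (n + 1 - 3 * P.toList.length - 2)) :
    Dat m (n + 1) where
  c := P.toList.length
  lab := fun j => P.toList.get j
  g1 := min a (n + 1 - 3 * P.toList.length - 2)
  g2 := n + 1 - 3 * P.toList.length - min a (n + 1 - 3 * P.toList.length - 2)
  ga := Classical.choose (exists_gam _ h1)
  gb := Classical.choose (exists_gam _ h2)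
  card := by omega
  ga_ne := (Classical.choose_spec (exists_gam _ h1)).2
  gb_ne := (Classical.choose_spec (exists_gam _ h2)).2
  ok := fun q => h _ (Multiset.mem_toList.1 (List.get_mem _ _))

lemma mk_ms (m a n : ℕ) (P : Multiset (ℕ × ℕ)) (h h1 h2) : (mk m a n P h h1 h2).ms = P :=
  map_get P

lemma sum_fst (P : Multiset (ℕ × ℕ)) :
    ∑ q : Fin P.toList.length, (P.toList.get q).1 = (P.map Prod.fst).sum := by
  conv_rhs => rw [← map_get P, Multiset.map_map]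
  rfl

lemma sum_snd (P : Multiset (ℕ × ℕ)) :
    ∑ q : Fin P.toList.length, (P.toList.get q).2 = (P.map Prod.snd).sum := by
  conv_rhs => rw [← map_get P, Multiset.map_map]
  rfl

/-- **(T2)** the lower bound. -/
theorem lowG : LowG := by
  classical
  intro a n m mu L hna hDa hL
  have hn1 : ∀ P : {P // P ∈ L}, 2 ≤ min a (n + 1 - 3 * P.1.toList.length - 2) := by
    intro P
    have := (hL P.1 P.2).2.1
    rw [Multiset.length_toList]
    omega
  have hn2 : ∀ P : {P // P ∈ L}, 2 ≤ n + 1 - 3 * P.1.toList.length -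
      min a (n + 1 - 3 * P.1.toList.length - 2) := by
    intro P
    have := (hL P.1 P.2).2.1
    rw [Multiset.length_toList]
    omega
  let d : {P // P ∈ L} → Dat m (n + 1) := fun P =>
    mk m a n P.1 (fun x hx => ((hL P.1 P.2).1 x hx).1) (hn1 P) (hn2 P)
  have hms : ∀ P, (d P).ms = P.1 := fun P => mk_ms _ _ _ _ _ _ _
  have hg1 : ∀ P, (d P).g1 = min a (n + 1 - 3 * P.1.toList.length - 2) := fun _ => rfl
  have hg2 : ∀ P, (d P).g2 = n + 1 - 3 * P.1.toList.length -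
      min a (n + 1 - 3 * P.1.toList.length - 2) := fun _ => rfl
  have hc : ∀ P, (d P).c = P.1.toList.length := fun _ => rfl
  have hD : ∀ P, ∑ k, tl mu k ≤ (d P).g1 := by
    intro P
    have := (hL P.1 P.2).2.1
    rw [hg1, Multiset.length_toList]
    omega
  have hs : ∀ P, ∑ q, ((d P).lab q).2 = ∑ k, tl mu k := fun P =>
    (sum_snd P.1).trans (hL P.1 P.2).2.2.2
  have hf : ∀ P, ∑ q, ((d P).lab q).1 = (P.1.map Prod.fst).sum := fun P => sum_fst P.1
  have hmem : ∀ P, ∀ v ∈ GP m (Fin (d P).c) (d P).lab (tl mu),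
      (d P).psi (∑ k, tl mu k) v ∈ TI (n + 1) a (m + 1) mu := by
    intro P v hv
    rw [Dat.psi, Psi_apply]
    refine sym_mem (Ad_FV (a := a) (Classical.choose_spec (exists_gam _ (hn1 P))).1
      (Classical.choose_spec (exists_gam _ (hn2 P))).1 hv (hD P) ?_ ?_ ?_ ?_)
    · exact min_le_left _ _
    · have := (hL P.1 P.2).2.1
      rw [Multiset.length_toList]
      omega
    · intro q
      exact ((hL P.1 P.2).1 _ (Multiset.mem_toList.1 (List.get_mem P.1.toList _))).2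
    · have h1 := (hL P.1 P.2).2.2.1
      have h2 := (hL P.1 P.2).2.1
      have h3 := (d P).card
      rw [hf, hc]
      rw [hc] at h3
      rw [← Multiset.length_toList] at h1 h2
      omega
  have h5 := dim_le d (fun i j h => Subtype.ext (by rw [← hms i, h, hms j])) hD hs a mu hmem
  refine le_trans (le_of_eq ?_) h5
  congr 1
  exact (Finset.sum_coe_sort L (fun P => G m (tl mu) P)).symm

end Vale.Agent.P181.ST.H575
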