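import Vale.Agent.P181.H583.HWDef

set_option autoImplicit false

/-!
# P181, ST (T2): derivations and linear forms
-/

open MvPolynomial

namespace Vale.Agent.P181.ST.H575

open Vale.Agent.P181.T4 (HW rowOp rowOp_apply mem_HW)

section op

variable {m : ℕ} {S : Type} [Fintype S]

/-- A first order operator in row `i`. -/
noncomputable def od (i : Fin m) (a : S → MvPolynomial (Fin m × S) ℂ) :
    Derivation ℂ (MvPolynomial (Fin m × S) ℂ) (MvPolynomial (Fin m × S) ℂ) :=
  mkDerivation ℂ fun p => if p.1 = i then a p.2 else 0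

lemma od_X (i : Fin m) (a : S → MvPolynomial (Fin m × S) ℂ) (p : Fin m × S) :
    od i a (X p) = if p.1 = i then a p.2 else 0 := mkDerivation_X _ _ _

lemma od_apply (i : Fin m) (a : S → MvPolynomial (Fin m × S) ℂ) (f : MvPolynomial (Fin m × S) ℂ) :
    od i a f = ∑ j, a j * pderiv (i, j) f := by
  classical
  induction f using MvPolynomial.induction_on with
  | C r =>
    rw [show (C r : MvPolynomial (Fin m × S) ℂ) = algebraMap ℂ _ r from rfl,
      Derivation.map_algebraMap]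
    exact (Finset.sum_eq_zero fun j _ => by rw [Derivation.map_algebraMap, mul_zero]).symm
  | add p q hp hq =>
    rw [map_add, hp, hq, ← Finset.sum_add_distrib]
    exact Finset.sum_congr rfl fun j _ => by rw [map_add, mul_add]
  | mul_X p x hp =>
    rw [Derivation.leibniz, hp, od_X]
    have h1 : ∀ j, a j * pderiv (i, j) (p * X x) =
        p * (a j * (if x = (i, j) then 1 else 0)) + X x * (a j * pderiv (i, j) p) := by
      intro j
      rw [Derivation.leibniz, smul_eq_mul, smul_eq_mul, pderiv_X]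
      have h2 : (Pi.single (i, j) 1 : Fin m × S → MvPolynomial (Fin m × S) ℂ) x =
          if x = (i, j) then 1 else 0 := by
        by_cases h : x = (i, j)
        · rw [if_pos h, h, Pi.single_eq_same]
        · rw [if_neg h, Pi.single_eq_of_ne h]
      rw [h2]
      ring
    rw [Finset.sum_congr rfl fun j _ => h1 j, Finset.sum_add_distrib, ← Finset.mul_sum,
      ← Finset.mul_sum, smul_eq_mul, smul_eq_mul]
    congr 2
    by_cases h : x.1 = i
    · rw [if_pos h, Finset.sum_eq_single x.2]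
      · rw [if_pos (by rw [← h]), mul_one]
      · intro j _ hj
        rw [if_neg (fun h' => hj (by rw [h'])), mul_zero]
      · intro h'
        exact absurd (Finset.mem_univ _) h'
    · rw [if_neg h]
      exact (Finset.sum_eq_zero fun j _ => by
        rw [if_neg (fun h' => h (by rw [h'])), mul_zero]).symm

/-- The translation of row `i`. -/
lemma od_one (i : Fin m) (f : MvPolynomial (Fin m × S) ℂ) :
    od i (fun _ => 1) f = ∑ j, pderiv (i, j) f := by
  rw [od_apply]
  exact Finset.sum_congr rfl fun j _ => one_mul _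

lemma od_row (s i : Fin m) (f : MvPolynomial (Fin m × S) ℂ) :
    od i (fun j => X (s, j)) f = rowOp s i f := by
  rw [od_apply, rowOp_apply]

end op

/-- The chain rule. -/
lemma der_aeval {σ τ : Type} (D : Derivation ℂ (MvPolynomial τ ℂ) (MvPolynomial τ ℂ))
    (E : Derivation ℂ (MvPolynomial σ ℂ) (MvPolynomial σ ℂ)) (Ξ : σ → MvPolynomial τ ℂ)
    (h : ∀ p, D (Ξ p) = aeval Ξ (E (X p))) (v : MvPolynomial σ ℂ) :
    D (aeval Ξ v) = aeval Ξ (E v) := by
  induction v using MvPolynomial.induction_on with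
  | C r =>
    rw [show (C r : MvPolynomial σ ℂ) = algebraMap ℂ _ r from rfl, AlgHom.commutes,
      Derivation.map_algebraMap, Derivation.map_algebraMap, map_zero]
  | add p q hp hq => rw [map_add, map_add, hp, hq, map_add, map_add]
  | mul_X p x hp =>
    rw [map_mul, Derivation.leibniz, hp, aeval_X, h, Derivation.leibniz, map_add, smul_eq_mul,
      smul_eq_mul, smul_eq_mul, smul_eq_mul, map_mul, map_mul, aeval_X]

lemma der_pow_zero {A : Type} [CommRing A] [Algebra ℂ A] (D : Derivation ℂ A A) {x : A}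
    (h : D x = 0) (n : ℕ) : D (x ^ n) = 0 := by
  rw [Derivation.leibniz_pow, h, smul_zero, smul_zero]

lemma der_mul_zero {A : Type} [CommRing A] [Algebra ℂ A] (D : Derivation ℂ A A) {x y : A}
    (h : D x = 0) (h' : D y = 0) : D (x * y) = 0 := by
  rw [Derivation.leibniz, h, h', smul_zero, smul_zero, add_zero]

lemma der_prod_zero {A ι : Type} [CommRing A] [Algebra ℂ A] (D : Derivation ℂ A A) (s : Finset ι)
    (x : ι → A) (h : ∀ i ∈ s, D (x i) = 0) : D (∏ i ∈ s, x i) = 0 := by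
  classical
  induction s using Finset.induction_on with
  | empty => rw [Finset.prod_empty, Derivation.map_one_eq_zero]
  | insert i s hi ih =>
    rw [Finset.prod_insert hi]
    exact der_mul_zero D (h i (Finset.mem_insert_self i s))
      (ih fun j hj => h j (Finset.mem_insert_of_mem hj))

/-- The polynomial `F`. -/
noncomputable def FF {m c : ℕ} {A : Type} [CommRing A] [Algebra ℂ A] (e1 e2 : ℕ) (ι : Fin c → ℕ)
    (Z : Fin (m + 1) → A) (Z' : A) (P : Fin c → A) (Q : Fin c → Fin (m + 1) → A)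
    (v : MvPolynomial (Fin m × Fin c) ℂ) : A :=
  Z 0 ^ e1 * Z' ^ e2 * (∏ q, P q ^ 2 * Q q 0 ^ ι q) *
    aeval (fun p : Fin m × Fin c => Z 0 * Q p.2 p.1.succ - Z p.1.succ * Q p.2 0) v

lemma der_FF {m c : ℕ} {τ : Type} (D : Derivation ℂ (MvPolynomial τ ℂ) (MvPolynomial τ ℂ))
    (E : Derivation ℂ (MvPolynomial (Fin m × Fin c) ℂ) (MvPolynomial (Fin m × Fin c) ℂ))
    (e1 e2 : ℕ) (ι : Fin c → ℕ) (Z : Fin (m + 1) → MvPolynomial τ ℂ) (Z' : MvPolynomial τ ℂ)
    (P : Fin c → MvPolynomial τ ℂ) (Q : Fin c → Fin (m + 1) → MvPolynomial τ ℂ)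
    (hZ : D (Z 0) = 0) (hZ' : D Z' = 0) (hP : ∀ q, D (P q) = 0) (hQ : ∀ q, D (Q q 0) = 0)
    (hE : ∀ p : Fin m × Fin c, D (Z 0 * Q p.2 p.1.succ - Z p.1.succ * Q p.2 0) =
      aeval (fun p : Fin m × Fin c => Z 0 * Q p.2 p.1.succ - Z p.1.succ * Q p.2 0) (E (X p)))
    (v : MvPolynomial (Fin m × Fin c) ℂ) (hv : E v = 0) : D (FF e1 e2 ι Z Z' P Q v) = 0 := by
  refine der_mul_zero D (der_mul_zero D (der_mul_zero D (der_pow_zero D hZ _)
    (der_pow_zero D hZ' _)) (der_prod_zero D _ _ fun q _ => der_mul_zero D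
      (der_pow_zero D (hP q) _) (der_pow_zero D (hQ q) _))) ?_
  rw [der_aeval D E _ hE, hv, map_zero]

section lin

variable {m : ℕ} {S T : Type} [Fintype S] [Fintype T]

/-- A linear form in row `i`. -/
noncomputable def lf (f : T → S) (φ : T → ℂ) (i : Fin m) : MvPolynomial (Fin m × S) ℂ :=
  ∑ t, C (φ t) * X (i, f t)

lemma od_lf (f : T → S) (φ : T → ℂ) (i : Fin m) (k : Fin m)
    (a : S → MvPolynomial (Fin m × S) ℂ) :
    od k a (lf f φ i) = if i = k then ∑ t, C (φ t) * a (f t) else 0 := by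
  unfold lf
  rw [map_sum]
  have h1 : ∀ t, od k a (C (φ t) * X (i, f t)) =
      if i = k then C (φ t) * a (f t) else 0 := by
    intro t
    rw [Derivation.leibniz, od_X, show (C (φ t) : MvPolynomial (Fin m × S) ℂ) =
      algebraMap ℂ _ (φ t) from rfl, Derivation.map_algebraMap, smul_zero, add_zero, smul_eq_mul]
    beta_reduce
    by_cases h : i = k
    · rw [if_pos h, if_pos h]
    · rw [if_neg h, if_neg h, mul_zero]
  rw [Finset.sum_congr rfl fun t _ => h1 t]
  by_cases h : i = k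
  · simp only [if_pos h]
  · simp only [if_neg h, Finset.sum_const_zero]

lemma od_one_lf (f : T → S) (φ : T → ℂ) (hφ : ∑ t, φ t = 0) (i : Fin m) (k : Fin m) :
    od k (fun _ => (1 : MvPolynomial (Fin m × S) ℂ)) (lf f φ i) = 0 := by
  rw [od_lf]
  by_cases h : i = k
  · rw [if_pos h]
    have h1 : ∑ t, C (φ t) * (1 : MvPolynomial (Fin m × S) ℂ) = C (∑ t, φ t) := by
      rw [map_sum]
      exact Finset.sum_congr rfl fun t _ => mul_one _
    rw [h1, hφ, map_zero]
  · rw [if_neg h]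

lemma od_row_lf (f : T → S) (φ : T → ℂ) (i s k : Fin m) :
    od k (fun j => X (s, j)) (lf f φ i) = if i = k then lf f φ s else 0 := od_lf f φ i k _

end lin

/-- Translation invariance. -/
theorem FF_TI {m c : ℕ} {S T1 T2 T3 : Type} [Fintype S] [Fintype T1] [Fintype T2] [Fintype T3]
    (e1 e2 : ℕ) (ι : Fin c → ℕ) (z : T1 → S) (ζ : T1 → ℂ) (hζ : ∑ t, ζ t = 0) (z' : T2 → S)
    (ζ' : T2 → ℂ) (hζ' : ∑ t, ζ' t = 0) (g : Fin c → T3 → S) (α χ : Fin c → T3 → ℂ)
    (hα : ∀ q, ∑ t, α q t = 0) (hχ : ∀ q, ∑ t, χ q t = 0)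
    (v : MvPolynomial (Fin m × Fin c) ℂ) (i : Fin (m + 1)) :
    ∑ j, pderiv (i, j) (FF e1 e2 ι (lf (m := m + 1) z ζ) (lf z' ζ' 0)
      (fun q => lf (g q) (α q) 0) (fun q => lf (g q) (χ q)) v) = 0 := by
  rw [← od_one]
  refine der_FF _ 0 _ _ _ _ _ _ _ (od_one_lf _ _ hζ _ _) (od_one_lf _ _ hζ' _ _)
    (fun q => od_one_lf _ _ (hα q) _ _) (fun q => od_one_lf _ _ (hχ q) _ _) (fun p => ?_) v rfl
  rw [map_sub, der_mul_zero _ (od_one_lf _ _ hζ _ _) (od_one_lf _ _ (hχ _) _ _),
    der_mul_zero _ (od_one_lf _ _ hζ _ _) (od_one_lf _ _ (hχ _) _ _), sub_zero,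
    Derivation.zero_apply, map_zero]

/-- The row operators. -/
theorem FF_row {m c : ℕ} {S T1 T2 T3 : Type} [Fintype S] [Fintype T1] [Fintype T2] [Fintype T3]
    (e1 e2 : ℕ) (ι : Fin c → ℕ) (z : T1 → S) (ζ : T1 → ℂ) (z' : T2 → S)
    (ζ' : T2 → ℂ) (g : Fin c → T3 → S) (α χ : Fin c → T3 → ℂ)
    (v : MvPolynomial (Fin m × Fin c) ℂ) (hv : ∀ s i : Fin m, s < i → rowOp s i v = 0)
    (s i : Fin (m + 1)) (hsi : s < i) :
    rowOp s i (FF e1 e2 ι (lf (m := m + 1) z ζ) (lf z' ζ' 0)
      (fun q => lf (g q) (α q) 0) (fun q => lf (g q) (χ q)) v) = 0 := by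
  have hi0 : (0 : Fin (m + 1)) ≠ i := fun h => by
    rw [← h] at hsi
    exact absurd hsi (Fin.not_lt_zero s)
  have h0 : ∀ {T : Type} [Fintype T] (f : T → S) (φ : T → ℂ),
      od i (fun j => X (s, j)) (lf (m := m + 1) f φ 0) = 0 := by
    intro T _ f φ
    rw [od_row_lf, if_neg hi0]
  obtain ⟨k, rfl⟩ := Fin.exists_succ_eq.2 (Ne.symm hi0)
  rw [← od_row]
  rcases Fin.eq_zero_or_eq_succ s with rfl | ⟨l, rfl⟩
  · refine der_FF _ 0 _ _ _ _ _ _ _ (h0 _ _) (h0 _ _) (fun q => h0 _ _) (fun q => h0 _ _)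
      (fun p => ?_) v rfl
    rw [Derivation.zero_apply, map_zero, map_sub, Derivation.leibniz, Derivation.leibniz, h0, h0,
      od_row_lf, od_row_lf]
    by_cases h : p.1.succ = k.succ
    · rw [if_pos h, if_pos h]
      simp only [smul_eq_mul, smul_zero, add_zero, zero_add]
      ring
    · rw [if_neg h, if_neg h]
      simp
  · refine der_FF _ (od k fun j => X (l, j)) _ _ _ _ _ _ _ (h0 _ _) (h0 _ _) (fun q => h0 _ _)
      (fun q => h0 _ _) (fun p => ?_) v ?_
    · rw [map_sub, Derivation.leibniz, Derivation.leibniz, h0, h0, od_row_lf, od_row_lf, od_X]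
      by_cases h : p.1 = k
      · rw [if_pos (by rw [h]), if_pos (by rw [h]), if_pos h, aeval_X]
        simp only [smul_eq_mul, smul_zero, add_zero, zero_add]
        ring
      · have h' : ¬ p.1.succ = k.succ := fun h' => h (Fin.succ_injective _ h')
        rw [if_neg h', if_neg h', if_neg h, map_zero]
        simp
    · rw [od_row]
      exact hv l k (Fin.succ_lt_succ_iff.1 hsi)

end Vale.Agent.P181.ST.H575
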