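import Vale.Agent.P181.ST.H575.Kap
import Vale.Agent.P181.ST.H775.Mem

set_option autoImplicit false

/-!
# P181, ST (T2): the sum over all bijections of the columns
-/

open MvPolynomial

namespace Vale.Agent.P181.ST.H575

open Vale.Agent.P181.T4 (HW)
open Vale.Agent.P181.SZ (TI mem_TI tl)
open Vale.Agent.P181.SZR5 (ren ren_row)
open Vale.Agent.P181.ST.H607 (kap)
open Vale.Agent.P181.ST.H775 (FV FV_apply Ad_FV deg_group gr dG ZF ZG AF CF phiF RF kA kC)
open Vale.Agent.P181.DH.H674 (Ad)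

section

variable {M n' a : ℕ} {σ τ : Type}

/-- The monomial in other columns. -/
noncomputable def pull [Fintype σ] (e : σ → τ) (w : Fin M × τ →₀ ℕ) : Fin M × σ →₀ ℕ :=
  Finsupp.equivFunOnFinite.symm fun p => w (p.1, e p.2)

lemma coeff_ren [Fintype σ] (e : σ ≃ τ) (w : Fin M × τ →₀ ℕ) (f : MvPolynomial (Fin M × σ) ℂ) :
    coeff w (ren M e f) = coeff (pull e w) f := by
  refine coeff_rename_comap (fun p : Fin M × σ => (p.1, e p.2)) ?_ f w (pull e w)
    (fun a => rfl) fun k hk => absurd ?_ (hk (k.1, e.symm k.2))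
  · intro p p' h
    exact Prod.ext (Prod.ext_iff.1 h).1 (e.injective (Prod.ext_iff.1 h).2)
  · rw [e.apply_symm_apply]

/-- The symmetrization. -/
lemma sym_mem [Fintype σ] [DecidableEq σ] {mu : Fin M → ℕ} {f : MvPolynomial (Fin M × σ) ℂ}
    (hf : Ad M σ a mu f) : ∑ e : σ ≃ Fin n', ren M e f ∈ TI n' a M mu := by
  classical
  refine mem_TI.2 ⟨Submodule.sum_mem _ fun e _ => ren_row hf.1, fun π => ?_, fun v hv j => ?_,
    fun i => ?_⟩
  · rw [map_sum]
    conv_rhs => rw [← Equiv.sum_comp (Equiv.equivCongr (Equiv.refl σ) π)]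
    refine Finset.sum_congr rfl fun e _ => ?_
    rw [ren, rename_rename]
    rfl
  · rw [coeff_sum] at hv
    obtain ⟨e, _, he⟩ := Finset.exists_ne_zero_of_sum_ne_zero hv
    exact (hf.ren e).2.1 v he j
  · have h1 : ∀ j, pderiv (i, j) (∑ e : σ ≃ Fin n', ren M e f) =
        ∑ e : σ ≃ Fin n', pderiv (i, j) (ren M e f) := fun j => map_sum _ _ _
    rw [Finset.sum_congr rfl fun j _ => h1 j, Finset.sum_comm]
    exact Finset.sum_eq_zero fun e _ => (hf.ren e).2.2 i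

end

variable {m c g1 g2 : ℕ}

/-- The rotation of the triples. -/
def rho (s : Fin c → Fin 3) : Cl c g1 g2 ≃ Cl c g1 g2 :=
  Equiv.sumCongr
    { toFun := fun x => (x.1, x.2 + s x.1)
      invFun := fun x => (x.1, x.2 - s x.1)
      left_inv := fun _ => Prod.ext rfl (add_sub_cancel_right _ _)
      right_inv := fun _ => Prod.ext rfl (sub_add_cancel _ _) } (Equiv.refl _)

lemma gr_rho (s : Fin c → Fin 3) (x : Cl c g1 g2) : gr (rho s x) = gr x := by
  rcases x with x | y | y <;> rfl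

lemma ren_ren_lf {n : ℕ} {σ τ ρ : Type} [Fintype σ] [Fintype τ] [Fintype ρ] (f : σ → τ)
    (ψ : τ → ρ) (φ : σ → ℂ) (i : Fin n) :
    ren n ψ (ren n f (H775.lf φ i)) = lf (fun t => ψ (f t)) φ i := by
  rw [H775.lf, lf, ren, ren, rename_rename, map_sum]
  refine Finset.sum_congr rfl fun t _ => ?_
  rw [map_mul, rename_C, rename_X]
  rfl

lemma FS_eq (ga : Fin g1 → ℂ) (gb : Fin g2 → ℂ) (D : ℕ) (lab : Fin c → ℕ × ℕ)
    (s : Fin c → Fin 3) (v : MvPolynomial (Fin m × Fin c) ℂ) :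
    FS (g1 - D) (fun q => (lab q).1) ga gb s v = ren (m + 1) (rho s) (FV ga gb D lab v) := by
  have h : FV ga gb D lab v = FF (g1 - D) g2 (fun q => (lab q).1) (ZF ga) (ZG gb 0)
      (fun q => AF q 0) (fun q => CF q) v := rfl
  rw [h, map_FF, FS]
  have e1 : (fun i => ren (m + 1) (rho s) (ZF (c := c) (g2 := g2) ga i)) =
      lf (m := m + 1) (fun t => Sum.inr (Sum.inl t)) ga := by
    funext i
    exact ren_ren_lf _ _ _ _
  have e2 : ren (m + 1) (rho s) (ZG (c := c) (g1 := g1) gb (0 : Fin (m + 1))) =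
      lf (fun t => Sum.inr (Sum.inr t)) gb 0 := ren_ren_lf _ _ _ _
  have e3 : (fun q : Fin c => ren (m + 1) (rho s) (AF (g1 := g1) (g2 := g2) q
      (0 : Fin (m + 1)))) = fun q => lf (tp s q) cA 0 := by
    funext q
    exact ren_ren_lf _ _ _ _
  have e4 : (fun (q : Fin c) (i : Fin (m + 1)) => ren (m + 1) (rho s)
      (CF (g1 := g1) (g2 := g2) q i)) = fun q => lf (tp s q) cC := by
    funext q i
    exact ren_ren_lf _ _ _ _
  rw [e1, e2, e3, e4]

/-- The map `v ↦ Sym F`. -/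
noncomputable def Psi (n' : ℕ) (ga : Fin g1 → ℂ) (gb : Fin g2 → ℂ) (D : ℕ)
    (lab : Fin c → ℕ × ℕ) :
    MvPolynomial (Fin m × Fin c) ℂ →ₗ[ℂ] MvPolynomial (Fin (m + 1) × Fin n') ℂ :=
  ∑ e : Cl c g1 g2 ≃ Fin n', (ren (m + 1) e).toLinearMap ∘ₗ FV ga gb D lab

lemma Psi_apply (n' : ℕ) (ga : Fin g1 → ℂ) (gb : Fin g2 → ℂ) (D : ℕ)
    (lab : Fin c → ℕ × ℕ) (v : MvPolynomial (Fin m × Fin c) ℂ) :
    Psi n' ga gb D lab v = ∑ e : Cl c g1 g2 ≃ Fin n', ren (m + 1) e (FV ga gb D lab v) := by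
  rw [Psi, LinearMap.sum_apply]
  rfl

/-- The average over the rotations. -/
lemma coeff_Psi (n' : ℕ) (ga : Fin g1 → ℂ) (gb : Fin g2 → ℂ) (D : ℕ)
    (lab : Fin c → ℕ × ℕ) (v : MvPolynomial (Fin m × Fin c) ℂ)
    (w : Fin (m + 1) × Fin n' →₀ ℕ) :
    (Fintype.card (Fin c → Fin 3) : ℂ) * coeff w (Psi n' ga gb D lab v) =
      ∑ e : Cl c g1 g2 ≃ Fin n', ∑ s, coeff (pull e w)
        (FS (g1 - D) (fun q => (lab q).1) ga gb s v) := by
  rw [Finset.sum_comm]
  have h1 : ∀ s : Fin c → Fin 3, ∑ e : Cl c g1 g2 ≃ Fin n', coeff (pull e w)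
      (FS (g1 - D) (fun q => (lab q).1) ga gb s v) = coeff w (Psi n' ga gb D lab v) := by
    intro s
    rw [Psi_apply, coeff_sum]
    conv_rhs => rw [← Equiv.sum_comp (Equiv.equivCongr (rho s).symm (Equiv.refl (Fin n')))]
    refine Finset.sum_congr rfl fun e _ => ?_
    rw [FS_eq, coeff_ren, coeff_ren]
    rfl
  rw [Finset.sum_congr rfl fun s _ => h1 s, Finset.sum_const, nsmul_eq_mul]
  rfl

/-- The sum over the positions of the big columns. -/
lemma sum_FS (e1 : ℕ) (ι d : Fin c → ℕ) (ζ : Fin g1 → ℂ) (ζ' : Fin g2 → ℂ)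
    (v : MvPolynomial (Fin m × Fin c) ℂ)
    (hv : ∀ u, coeff u v ≠ 0 → ∀ j, ∑ i, u (i, j) = d j) (he : e1 + ∑ q, d q = g1)
    (r : Fin c → Fin 3) (w : Fin (m + 1) × Cl c g1 g2 →₀ ℕ)
    (h1 : ∀ q t, t ≠ r q → w (0, Sum.inl (q, t)) = 1) (h2 : ∀ y, w (0, Sum.inr y) = 1)
    (h3 : ∀ (k : Fin m) q t, t ≠ r q → w (k.succ, Sum.inl (q, t)) = 0)
    (h4 : ∀ (k : Fin m) y, w (k.succ, Sum.inr y) = 0)
    (α : Fin m × Fin c →₀ ℕ) (hα : ∀ p, α p = w (p.1.succ, Sum.inl (p.2, r p.2))) :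
    (∑ s, coeff w (FS e1 ι ζ ζ' s v) = kg ζ ζ' * (∏ q, kap (ι q) (d q)) * coeff α v ∧
      ∀ q, w (0, Sum.inl (q, r q)) = ι q) ∨ (∑ s, coeff w (FS e1 ι ζ ζ' s v) = 0 ∧
      ¬ ∀ q, w (0, Sum.inl (q, r q)) = ι q) := by
  classical
  have key := fun s => coeff_FS e1 ι d ζ ζ' s v hv he r w h1 h2 h3 h4 α hα
  by_cases hall : ∀ q, w (0, Sum.inl (q, r q)) = ι q
  · left
    refine ⟨?_, hall⟩
    have h5 : ∀ s, coeff w (FS e1 ι ζ ζ' s v) =
        kg ζ ζ' * (∏ q, kt (r q - s q) (ι q) (d q)) * coeff α v := by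
      intro s
      rcases key s with ⟨h, _⟩ | ⟨_, q, hq⟩
      · exact h
      · exact absurd (hall q) hq
    rw [Finset.sum_congr rfl fun s _ => h5 s, ← Finset.sum_mul, ← Finset.mul_sum]
    congr 2
    have h6 : ∀ q, kap (ι q) (d q) = ∑ t ∈ (Finset.univ : Finset (Fin 3)),
        kt (r q - t) (ι q) (d q) := by
      intro q
      rw [← sum_kt]
      exact (Equiv.sum_comp (Equiv.subLeft (r q)) fun t => kt t (ι q) (d q)).symm
    rw [Finset.prod_congr rfl fun q _ => h6 q, Finset.prod_univ_sum, Fintype.piFinset_univ]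
  · right
    refine ⟨Finset.sum_eq_zero fun s _ => ?_, hall⟩
    rcases key s with ⟨_, h⟩ | ⟨h, _⟩
    · exact absurd h hall
    · exact h

open scoped Classical in
lemma grp_sum (u : Fin (m + 1) × Cl c g1 g2 →₀ ℕ) (q : Fin c) :
    (∑ j, ∑ i, if gr j = Sum.inl q then u (i, j) else 0) = ∑ t, ∑ i, u (i, Sum.inl (q, t)) := by
  rw [Fintype.sum_sum_type, Fintype.sum_prod_type]
  have h1 : ∑ y : Fin g1 ⊕ Fin g2, ∑ i, (if gr (Sum.inr y : Cl c g1 g2) = Sum.inl q then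
      u (i, Sum.inr y) else 0) = 0 := by
    refine Finset.sum_eq_zero fun y _ => Finset.sum_eq_zero fun i _ => if_neg ?_
    rcases y with y | y
    · intro h
      exact absurd h (by simp [gr])
    · intro h
      exact absurd h (by simp [gr])
  rw [h1, add_zero, Finset.sum_eq_single q]
  · refine Finset.sum_congr rfl fun t _ => Finset.sum_congr rfl fun i _ => if_pos rfl
  · intro q' _ hq
    refine Finset.sum_eq_zero fun t _ => Finset.sum_eq_zero fun i _ => if_neg fun h => hq ?_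
    exact Sum.inl_injective h
  · intro h
    exact absurd (Finset.mem_univ _) h

/-- The coefficient at a monomial with `c' ≤ c` big columns. -/
theorem key {c' n' : ℕ} {ga : Fin g1 → ℂ} {gb : Fin g2 → ℂ} {lab : Fin c → ℕ × ℕ}
    {nu : Fin m → ℕ} {v : MvPolynomial (Fin m × Fin c) ℂ} (hv : v ∈ GP m (Fin c) lab nu)
    (hD : ∑ i, nu i ≤ g1) (hs : ∑ q, (lab q).2 = ∑ i, nu i)
    (hlab : ∀ q, 2 ≤ (lab q).1 + (lab q).2) (hc : c' ≤ c)
    (e : Cl c g1 g2 ≃ Fin n') (w : Fin (m + 1) × Fin n' →₀ ℕ) (p : Fin c' → Fin n')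
    (lab' : Fin c' → ℕ × ℕ) (α : Fin m × Fin c' →₀ ℕ) (hα : ∀ q, ∑ k, α (k, q) = (lab' q).2)
    (w0 : ∀ q, w (0, p q) = (lab' q).1) (w1 : ∀ q k, w (Fin.succ k, p q) = α (k, q))
    (w2 : ∀ x, (∀ q, p q ≠ x) → w (0, x) = 1 ∧ ∀ k : Fin m, w (k.succ, x) = 0) :
    ∑ s, coeff (pull e w) (FS (g1 - ∑ i, nu i) (fun q => (lab q).1) ga gb s v) = 0 ∨
      ∃ h : Fin c → Fin c', Function.Bijective h ∧ (∀ q, lab q = lab' (h q)) ∧
        ∑ s, coeff (pull e w) (FS (g1 - ∑ i, nu i) (fun q => (lab q).1) ga gb s v) =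
          kg ga gb * (∏ q, kap (lab q).1 (lab q).2) *
            coeff (Finsupp.equivFunOnFinite.symm fun x : Fin m × Fin c => α (x.1, h x.2)) v := by
  classical
  by_cases h0 : ∀ s, coeff (pull e w) (FS (g1 - ∑ i, nu i) (fun q => (lab q).1) ga gb s v) = 0
  · exact Or.inl (Finset.sum_eq_zero fun s _ => h0 s)
  push Not at h0
  obtain ⟨s, hs0⟩ := h0
  rw [FS_eq, coeff_ren] at hs0
  have hex : ∀ q, ∃ t q', e (Sum.inl (q, t)) = p q' := by
    intro q
    by_contra hno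
    push Not at hno
    have h1 := deg_group hv hD (Sum.inl q) hs0
    rw [grp_sum] at h1
    have h2 : ∀ t : Fin 3, ∑ i, pull (rho s) (pull e w) (i, Sum.inl (q, t)) = 1 := by
      intro t
      have h3 := w2 (e (Sum.inl (q, t + s q))) (fun q' h => hno (t + s q) q' h.symm)
      rw [Fin.sum_univ_succ]
      have h4 : pull (rho s) (pull e w) ((0 : Fin (m + 1)), (Sum.inl (q, t) : Cl c g1 g2)) = 1 :=
        h3.1
      have h5 : ∀ k : Fin m, pull (rho s) (pull e w) (k.succ, (Sum.inl (q, t) : Cl c g1 g2)) = 0 :=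
        h3.2
      rw [h4, Finset.sum_eq_zero fun k _ => h5 k, add_zero]
    rw [Finset.sum_congr rfl fun t _ => h2 t] at h1
    have h6 : dG g1 g2 lab (Sum.inl q) = 2 + (lab q).1 + (lab q).2 := rfl
    rw [h6] at h1
    have h7 := hlab q
    simp at h1
    omega
  choose r h hrh using hex
  have hinj : Function.Injective h := by
    intro q1 q2 h12
    have h1 := hrh q1
    rw [h12, ← hrh q2] at h1
    exact (Prod.ext_iff.1 (Sum.inl_injective (e.injective h1))).1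
  have hcard : Fintype.card (Fin c) = Fintype.card (Fin c') := by
    have h1 := Fintype.card_le_of_injective h hinj
    rw [Fintype.card_fin, Fintype.card_fin] at h1 ⊢
    omega
  have hbij := (Fintype.bijective_iff_injective_and_card h).2 ⟨hinj, hcard⟩
  have hnot : ∀ y : Cl c g1 g2, (∀ q, y ≠ Sum.inl (q, r q)) → ∀ q', p q' ≠ e y := by
    intro y hy q' hq'
    obtain ⟨q3, rfl⟩ := hbij.2 q'
    rw [← hrh q3] at hq'
    exact hy q3 (e.injective hq').symm
  have hnl : ∀ q t, t ≠ r q → ∀ q1, (Sum.inl (q, t) : Cl c g1 g2) ≠ Sum.inl (q1, r q1) := by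
    intro q t ht q1 h1
    have h2 := Sum.inl_injective h1
    have h3 : q = q1 := (Prod.ext_iff.1 h2).1
    subst h3
    exact ht (Prod.ext_iff.1 h2).2
  have hnr : ∀ y q1, (Sum.inr y : Cl c g1 g2) ≠ Sum.inl (q1, r q1) := fun y q1 h1 =>
    absurd h1 (by simp)
  have hvd : ∀ u, coeff u v ≠ 0 → ∀ j, ∑ i, u (i, j) = (lab j).2 := hv.2.1
  rcases sum_FS (g1 - ∑ i, nu i) (fun q => (lab q).1) (fun q => (lab q).2) ga gb v hvd
    (by rw [hs]; omega) r (pull e w)
    (fun q t ht => (w2 _ (hnot _ (hnl q t ht))).1) (fun y => (w2 _ (hnot _ (hnr y))).1)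
    (fun k q t ht => (w2 _ (hnot _ (hnl q t ht))).2 k) (fun k y => (w2 _ (hnot _ (hnr y))).2 k)
    (Finsupp.equivFunOnFinite.symm fun x : Fin m × Fin c => α (x.1, h x.2))
    (fun x => by
      change α (x.1, h x.2) = w (x.1.succ, e (Sum.inl (x.2, r x.2)))
      rw [hrh, w1]) with ⟨hT, hl⟩ | ⟨hT, _⟩
  · by_cases hz : coeff (Finsupp.equivFunOnFinite.symm fun x : Fin m × Fin c => α (x.1, h x.2)) v
        = 0
    · left
      rw [hT, hz, mul_zero]
    · right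
      refine ⟨h, hbij, fun q => ?_, hT⟩
      have h1 : w (0, e (Sum.inl (q, r q))) = (lab q).1 := hl q
      rw [hrh, w0] at h1
      have h2 := hvd _ hz q
      have h3 : ∑ i, α (i, h q) = (lab q).2 := h2
      rw [hα] at h3
      exact Prod.ext h1.symm h3.symm
  · exact Or.inl hT

end Vale.Agent.P181.ST.H575
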